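import Mathlib

/-!
A certificate checker for nonnegativity of bivariate rational polynomials on unions of boxes:
each box is mapped to the positive quadrant, and the transformed polynomial must have
nonnegative coefficients. The coefficients are computed packed into one integer.
-/

open Polynomial

namespace Vale.Agent.P322.High

/-- Expressions for bivariate polynomials; `c n d` is the constant `n / (d + 1)`. -/
inductive Ex where
  | c (n : ℤ) (d : ℕ)
  | x
  | z
  | add (a b : Ex)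
  | sub (a b : Ex)
  | mul (a b : Ex)

instance : Add Ex := ⟨Ex.add⟩
instance : Sub Ex := ⟨Ex.sub⟩
instance : Mul Ex := ⟨Ex.mul⟩

/-- `n / d` for positive `d`. -/
def Ex.q (n : ℤ) (d : ℕ) : Ex := Ex.c n (d - 1)

/-- Natural powers. -/
def Ex.pow (a : Ex) : ℕ → Ex
  | 0 => Ex.c 1 0
  | 1 => a
  | n + 2 => Ex.pow a (n + 1) * a

/-- The value of an expression. -/
noncomputable def ev (m V : ℝ) : Ex → ℝ
  | .c n d => (n : ℝ) / ((d : ℝ) + 1)
  | .x => m
  | .z => V
  | .add a b => ev m V a + ev m V b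
  | .sub a b => ev m V a - ev m V b
  | .mul a b => ev m V a * ev m V b

variable {m V : ℝ} {a b : Ex}

@[simp] lemma ev_add : ev m V (a + b) = ev m V a + ev m V b := rfl
@[simp] lemma ev_sub : ev m V (a - b) = ev m V a - ev m V b := rfl
@[simp] lemma ev_mul : ev m V (a * b) = ev m V a * ev m V b := rfl

@[simp] lemma ev_pow : ∀ n : ℕ, ev m V (Ex.pow a n) = ev m V a ^ n
  | 0 => by simp [Ex.pow, ev]
  | 1 => by simp [Ex.pow]
  | n + 2 => by rw [Ex.pow, ev_mul, ev_pow (n + 1), pow_succ _ (n + 1)]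

/-- A box `[x₀, x₁) × [z₀, z₁)` in units of `1 / nx` and `1 / nz`. -/
structure Box where
  nx : ℕ
  nz : ℕ
  x0 : ℕ
  x1 : ℕ
  z0 : ℕ
  z1 : ℕ

/-- Packed value, coefficient norm, scale and degrees of a transformed expression. -/
structure Res where
  v : ℤ
  n : ℕ
  s : ℕ
  dx : ℕ
  dz : ℕ

/-- Natural powers of integers, by recursion. -/
def ipow (v : ℤ) : ℕ → ℤ
  | 0 => 1
  | n + 1 => ipow v n * v

/-- Natural powers, by recursion. -/
def npow' (v : ℕ) : ℕ → ℕ
  | 0 => 1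
  | n + 1 => npow' v n * v

/-- The transformed expression, packed at ` (X, Z)`. -/
def run (B : Box) (X Z : ℤ) : Ex → Res
  | .c n d => ⟨n, n.natAbs, d + 1, 0, 0⟩
  | .x => ⟨(B.x0 : ℤ) + B.x1 * X, B.x0 + B.x1, 1, 1, 0⟩
  | .z => ⟨(B.z0 : ℤ) + B.z1 * Z, B.z0 + B.z1, 1, 0, 1⟩
  | .mul a b =>
    match run B X Z a, run B X Z b with
    | ⟨v, n, s, i, j⟩, ⟨v', n', s', i', j'⟩ => ⟨v * v', n * n', s * s', i + i', j + j'⟩
  | .add a b =>
    match run B X Z a, run B X Z b with
    | ⟨v, n, s, i, j⟩, ⟨v', n', s', i', j'⟩ =>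
      ⟨(s' / s.gcd s' : ℕ) * (ipow (B.nx * (1 + X)) (max i i' - i) *
          ipow (B.nz * (1 + Z)) (max j j' - j) * v) +
        (s / s.gcd s' : ℕ) * (ipow (B.nx * (1 + X)) (max i i' - i') *
          ipow (B.nz * (1 + Z)) (max j j' - j') * v'),
       (s' / s.gcd s') * (npow' (B.nx + B.nx) (max i i' - i) *
          npow' (B.nz + B.nz) (max j j' - j) * n) +
        (s / s.gcd s') * (npow' (B.nx + B.nx) (max i i' - i') *
          npow' (B.nz + B.nz) (max j j' - j') * n'),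
       s * (s' / s.gcd s'), max i i', max j j'⟩
  | .sub a b =>
    match run B X Z a, run B X Z b with
    | ⟨v, n, s, i, j⟩, ⟨v', n', s', i', j'⟩ =>
      ⟨(s' / s.gcd s' : ℕ) * (ipow (B.nx * (1 + X)) (max i i' - i) *
          ipow (B.nz * (1 + Z)) (max j j' - j) * v) -
        (s / s.gcd s' : ℕ) * (ipow (B.nx * (1 + X)) (max i i' - i') *
          ipow (B.nz * (1 + Z)) (max j j' - j') * v'),
       (s' / s.gcd s') * (npow' (B.nx + B.nx) (max i i' - i) *
          npow' (B.nz + B.nz) (max j j' - j) * n) +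
        (s / s.gcd s') * (npow' (B.nx + B.nx) (max i i' - i') *
          npow' (B.nz + B.nz) (max j j' - j') * n'),
       s * (s' / s.gcd s'), max i i', max j j'⟩

/-- The first `k` signed digits of `v` in base `X` are nonnegative. -/
def digitsNonneg (X : ℤ) : ℕ → ℤ → Bool
  | 0, _ => true
  | k + 1, v => decide (2 * (v % X) < X) && digitsNonneg X k (v / X)

/-- The transformed expression has nonnegative coefficients. -/
def checkBox (e : Ex) (B : Box) (bits D : ℕ) : Bool :=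
  let X : ℤ := (2 ^ bits : ℕ)
  let R := run B X (ipow X D) e
  decide (0 < B.nx) && decide (0 < B.nz) && decide (2 * R.n < 2 ^ bits) && decide (R.dx < D) && digitsNonneg X (D * (R.dz + 1)) R.v

/-- The `ℓ¹` norm of the coefficients, for a norm `f` on the coefficient ring. -/
noncomputable def pnorm {R : Type*} [Semiring R] (f : R → ℕ) (p : R[X]) : ℕ :=
  ∑ i ∈ p.support, f (p.coeff i)

section pnorm

variable {R : Type*} [Semiring R] {f : R → ℕ}

lemma pnorm_eq_of_subset (h0 : f 0 = 0) (p : R[X]) {s : Finset ℕ} (h : p.support ⊆ s) :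
    pnorm f p = ∑ i ∈ s, f (p.coeff i) :=
  Finset.sum_subset h fun i _ hi => by rw [notMem_support_iff.1 hi, h0]

lemma pnorm_add (h0 : f 0 = 0) (ha : ∀ a b, f (a + b) ≤ f a + f b) (p q : R[X]) :
    pnorm f (p + q) ≤ pnorm f p + pnorm f q := by
  rw [pnorm_eq_of_subset h0 (p + q) support_add,
    pnorm_eq_of_subset h0 p (s := p.support ∪ q.support) Finset.subset_union_left,
    pnorm_eq_of_subset h0 q (s := p.support ∪ q.support) Finset.subset_union_right,
    ← Finset.sum_add_distrib]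
  exact Finset.sum_le_sum fun i _ => by rw [coeff_add]; exact ha _ _

lemma pnorm_sum (h0 : f 0 = 0) (ha : ∀ a b, f (a + b) ≤ f a + f b) {ι : Type*} (s : Finset ι)
    (g : ι → R[X]) : pnorm f (∑ i ∈ s, g i) ≤ ∑ i ∈ s, pnorm f (g i) := by
  classical
  induction s using Finset.induction with
  | empty => simp [pnorm]
  | insert i s hi ih =>
    rw [Finset.sum_insert hi, Finset.sum_insert hi]
    exact (pnorm_add h0 ha _ _).trans (by omega)

lemma pnorm_monomial (h0 : f 0 = 0) (i : ℕ) (a : R) : pnorm f (monomial i a) = f a := by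
  rw [pnorm_eq_of_subset h0 _ (support_monomial_subset i a), Finset.sum_singleton, coeff_monomial_same]

lemma pnorm_C (h0 : f 0 = 0) (a : R) : pnorm f (C a) = f a := by
  rw [← monomial_zero_left, pnorm_monomial h0]

lemma pnorm_mul (h0 : f 0 = 0) (ha : ∀ a b, f (a + b) ≤ f a + f b)
    (hm : ∀ a b, f (a * b) ≤ f a * f b) (p q : R[X]) :
    pnorm f (p * q) ≤ pnorm f p * pnorm f q := by
  rw [mul_eq_sum_sum, pnorm, pnorm, Finset.sum_mul]
  refine (pnorm_sum h0 ha _ _).trans (Finset.sum_le_sum fun i _ => ?_)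
  rw [Polynomial.sum, show pnorm f q = ∑ j ∈ q.support, f (q.coeff j) from rfl, Finset.mul_sum]
  refine (pnorm_sum h0 ha _ _).trans (Finset.sum_le_sum fun j _ => ?_)
  rw [pnorm_monomial h0]
  exact hm _ _

lemma le_pnorm (h0 : f 0 = 0) (p : R[X]) (i : ℕ) : f (p.coeff i) ≤ pnorm f p := by
  by_cases hi : i ∈ p.support
  · exact Finset.single_le_sum (f := fun i => f (p.coeff i)) (fun _ _ => Nat.zero_le _) hi
  · rw [notMem_support_iff.1 hi, h0]; exact Nat.zero_le _

end pnorm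

/-- The norm on univariate integer polynomials. -/
noncomputable def norm1 : ℤ[X] → ℕ := pnorm Int.natAbs

/-- The norm on bivariate integer polynomials. -/
noncomputable def norm2 : ℤ[X][X] → ℕ := pnorm norm1

lemma norm1_zero : norm1 0 = 0 := by simp [norm1, pnorm]
lemma norm1_add (p q : ℤ[X]) : norm1 (p + q) ≤ norm1 p + norm1 q :=
  pnorm_add Int.natAbs_zero Int.natAbs_add_le p q
lemma norm1_mul (p q : ℤ[X]) : norm1 (p * q) ≤ norm1 p * norm1 q :=
  pnorm_mul Int.natAbs_zero Int.natAbs_add_le (fun a b => (Int.natAbs_mul a b).le) p q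
lemma norm1_C (a : ℤ) : norm1 (C a) = a.natAbs := pnorm_C Int.natAbs_zero a
lemma norm1_X : norm1 X = 1 := by
  rw [norm1, ← monomial_one_one_eq_X, pnorm_monomial Int.natAbs_zero]; rfl

lemma norm2_add (p q : ℤ[X][X]) : norm2 (p + q) ≤ norm2 p + norm2 q :=
  pnorm_add norm1_zero norm1_add p q
lemma norm2_mul (p q : ℤ[X][X]) : norm2 (p * q) ≤ norm2 p * norm2 q :=
  pnorm_mul norm1_zero norm1_add norm1_mul p q
lemma norm2_C (p : ℤ[X]) : norm2 (C p) = norm1 p := pnorm_C norm1_zero p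
lemma norm2_int (a : ℤ) : norm2 (C (C a)) = a.natAbs := by rw [norm2_C, norm1_C]
lemma norm2_X : norm2 X = 1 := by
  rw [norm2, ← monomial_one_one_eq_X, pnorm_monomial norm1_zero, ← C_1, norm1_C]; rfl

lemma norm2_neg (p : ℤ[X][X]) : norm2 (-p) ≤ norm2 p := by
  have h : -p = C (C (-1 : ℤ)) * p := by
    rw [map_neg, map_neg, map_one, map_one]
    exact (neg_one_mul p).symm
  rw [h]
  exact (norm2_mul _ _).trans (by rw [norm2_int]; simp)

lemma norm2_pow {p : ℤ[X][X]} {b : ℕ} (h : norm2 p ≤ b) : ∀ k, norm2 (p ^ k) ≤ npow' b k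
  | 0 => by rw [pow_zero, ← C_1, ← C_1, norm2_int]; rfl
  | k + 1 => by
    rw [pow_succ, npow']
    exact (norm2_mul _ _).trans (Nat.mul_le_mul (norm2_pow h k) h)

lemma ipow_eq (v : ℤ) : ∀ k, ipow v k = v ^ k
  | 0 => by simp [ipow]
  | k + 1 => by rw [ipow, ipow_eq v k, pow_succ]

/-- Evaluation at the packing point. -/
noncomputable def pk (X Z : ℤ) : ℤ[X][X] →+* ℤ := eval₂RingHom (evalRingHom X) Z

/-- Evaluation at a real point. -/
noncomputable def rv (S R : ℝ) : ℤ[X][X] →+* ℝ :=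
  eval₂RingHom (eval₂RingHom (Int.castRingHom ℝ) S) R

/-- Bound on the degree in the inner variable. -/
def DegLe (P : ℤ[X][X]) (i : ℕ) : Prop := ∀ k, (P.coeff k).natDegree ≤ i

lemma degLe_C {p : ℤ[X]} {i : ℕ} (h : p.natDegree ≤ i) : DegLe (C p) i := by
  intro k; rw [coeff_C]; split_ifs with hk
  · exact h
  · simp

lemma degLe_X : DegLe (X : ℤ[X][X]) 0 := by
  intro k; rw [coeff_X]; split_ifs <;> simp

lemma DegLe.mono {P : ℤ[X][X]} {i j : ℕ} (h : DegLe P i) (hij : i ≤ j) : DegLe P j :=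
  fun k => (h k).trans hij

lemma DegLe.add {P Q : ℤ[X][X]} {i : ℕ} (h : DegLe P i) (h' : DegLe Q i) : DegLe (P + Q) i :=
  fun k => by rw [coeff_add]; exact natDegree_add_le_of_degree_le (h k) (h' k)

lemma DegLe.neg {P : ℤ[X][X]} {i : ℕ} (h : DegLe P i) : DegLe (-P) i :=
  fun k => by rw [coeff_neg, natDegree_neg]; exact h k

lemma DegLe.mul {P Q : ℤ[X][X]} {i j : ℕ} (h : DegLe P i) (h' : DegLe Q j) :
    DegLe (P * Q) (i + j) := fun k => by
  rw [coeff_mul]
  exact natDegree_sum_le_of_forall_le _ _ fun p _ =>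
    natDegree_mul_le.trans (add_le_add (h _) (h' _))

lemma DegLe.pow {P : ℤ[X][X]} {i : ℕ} (h : DegLe P i) : ∀ k, DegLe (P ^ k) (k * i)
  | 0 => by rw [pow_zero, ← C_1]; exact degLe_C (by simp)
  | k + 1 => by rw [pow_succ, Nat.succ_mul]; exact (h.pow k).mul h

/-- The statement that `R` is the transform of the function value `f`. -/
structure Wit (B : Box) (X Z : ℤ) (f : ℝ → ℝ → ℝ) (R : Res) (P : ℤ[X][X]) : Prop where
  pack : pk X Z P = R.v
  norm : norm2 P ≤ R.n
  scale : 0 < R.s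
  degz : P.natDegree ≤ R.dz
  degx : DegLe P R.dx
  value : ∀ m V S U : ℝ, m * (B.nx * (1 + S)) = B.x0 + B.x1 * S →
    V * (B.nz * (1 + U)) = B.z0 + B.z1 * U →
    rv S U P = R.s * f m V * (B.nx * (1 + S)) ^ R.dx * (B.nz * (1 + U)) ^ R.dz

variable (B : Box) (X₀ Z₀ : ℤ)

/-- The polynomial `nx * (1 + S)`. -/
noncomputable def padX : ℤ[X][X] := C (C (B.nx : ℤ) * (1 + X))

/-- The polynomial `nz * (1 + U)`. -/
noncomputable def padZ : ℤ[X][X] := C (C (B.nz : ℤ)) * (1 + X)

lemma norm1_one : norm1 1 = 1 := by rw [← C_1, norm1_C]; rfl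

lemma norm_padX : norm2 (padX B) ≤ B.nx + B.nx := by
  rw [padX, norm2_C]
  refine (norm1_mul _ _).trans ?_
  have := norm1_add 1 X
  rw [norm1_one, norm1_X] at this
  rw [norm1_C, Int.natAbs_natCast]
  nlinarith

lemma norm_padZ : norm2 (padZ B) ≤ B.nz + B.nz := by
  refine (norm2_mul _ _).trans ?_
  have := norm2_add 1 X
  rw [← C_1, norm2_C, norm1_one, C_1, norm2_X] at this
  rw [norm2_int, Int.natAbs_natCast]
  nlinarith

lemma degLe_padX : DegLe (padX B) 1 :=
  degLe_C ((natDegree_C_mul_le _ _).trans (by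
    rw [add_comm, ← C_1, natDegree_X_add_C]))

lemma degLe_padZ : DegLe (padZ B) 0 := by
  rw [padZ, show (0 : ℕ) = 0 + 0 from rfl]
  refine DegLe.mul (degLe_C (by simp)) (DegLe.add ?_ degLe_X)
  rw [← C_1]; exact degLe_C (by simp)

lemma natDegree_padZ : (padZ B).natDegree ≤ 1 :=
  (natDegree_C_mul_le _ _).trans (by rw [add_comm, ← C_1, natDegree_X_add_C])

/-- Raise a witness to degrees ` (i, j)`. -/
noncomputable def lift (P : ℤ[X][X]) (k : ℕ) (i j : ℕ) : ℤ[X][X] :=
  C (C (k : ℤ)) * (padX B ^ i * padZ B ^ j * P)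

lemma lift_props {f : ℝ → ℝ → ℝ} {R : Res} {P : ℤ[X][X]} (h : Wit B X₀ Z₀ f R P)
    (k i j : ℕ) (hi : R.dx ≤ i) (hj : R.dz ≤ j) :
    pk X₀ Z₀ (lift B P k (i - R.dx) (j - R.dz)) =
        (k : ℤ) * (ipow (B.nx * (1 + X₀)) (i - R.dx) * ipow (B.nz * (1 + Z₀)) (j - R.dz) * R.v) ∧
      norm2 (lift B P k (i - R.dx) (j - R.dz)) ≤
        k * (npow' (B.nx + B.nx) (i - R.dx) * npow' (B.nz + B.nz) (j - R.dz) * R.n) ∧
      (lift B P k (i - R.dx) (j - R.dz)).natDegree ≤ j ∧
      DegLe (lift B P k (i - R.dx) (j - R.dz)) i ∧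
      ∀ m V S U : ℝ, m * (B.nx * (1 + S)) = B.x0 + B.x1 * S →
        V * (B.nz * (1 + U)) = B.z0 + B.z1 * U →
        rv S U (lift B P k (i - R.dx) (j - R.dz)) =
          k * (R.s * f m V * (B.nx * (1 + S)) ^ i * (B.nz * (1 + U)) ^ j) := by
  refine ⟨?_, ?_, ?_, ?_, ?_⟩
  · simp only [lift, map_mul, map_pow, h.pack, ipow_eq]
    simp [pk, padX, padZ]
  · refine (norm2_mul _ _).trans ?_
    rw [norm2_int, Int.natAbs_natCast]
    exact Nat.mul_le_mul_left _ ((norm2_mul _ _).trans (Nat.mul_le_mul ((norm2_mul _ _).trans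
      (Nat.mul_le_mul (norm2_pow (norm_padX B) _) (norm2_pow (norm_padZ B) _))) h.norm))
  · refine (natDegree_C_mul_le _ _).trans (natDegree_mul_le.trans ?_)
    have h1 : (padX B ^ (i - R.dx) * padZ B ^ (j - R.dz)).natDegree ≤ j - R.dz := by
      refine natDegree_mul_le.trans ?_
      have := natDegree_pow_le_of_le (i - R.dx) (m := 0) (p := padX B) (natDegree_C _).le
      have := natDegree_pow_le_of_le (j - R.dz) (natDegree_padZ B)
      omega
    have := h.degz
    omega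
  · have := (((degLe_C (p := C (k : ℤ)) (i := 0) (by simp)).mul
      ((((degLe_padX B).pow (i - R.dx)).mul ((degLe_padZ B).pow (j - R.dz))).mul h.degx)))
    exact this.mono (by omega)
  · intro m V S U hm hV
    simp only [lift, map_mul, map_pow, h.value m V S U hm hV]
    simp only [rv, padX, padZ, coe_eval₂RingHom, eval₂_C, eval₂_mul, eval₂_add, eval₂_X,
      eval₂_one, eq_intCast, Int.cast_natCast]
    conv_rhs => rw [← Nat.sub_add_cancel hi, ← Nat.sub_add_cancel hj, pow_add, pow_add]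
    simp only [eval₂_natCast]
    ring

lemma gcd_scale {s s' : ℕ} (hs : 0 < s) (hs' : 0 < s') :
    0 < s * (s' / s.gcd s') ∧ (s / s.gcd s') * s' = s * (s' / s.gcd s') := by
  refine ⟨Nat.mul_pos hs (Nat.div_pos (Nat.le_of_dvd hs' (Nat.gcd_dvd_right s s'))
    (Nat.gcd_pos_of_pos_left _ hs)), ?_⟩
  rw [Nat.div_mul_right_comm (Nat.gcd_dvd_left s s'), ← Nat.mul_div_assoc _ (Nat.gcd_dvd_right s s')]

lemma scale_align {s s' g : ℕ} (x y : ℝ) (hg : g * s' = s * (s' / s.gcd s')) :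
    ((s * (s' / s.gcd s') : ℕ) : ℝ) * x = (s' / s.gcd s' : ℕ) * (s * x) ∧
      ((s * (s' / s.gcd s') : ℕ) : ℝ) * y = (g : ℕ) * (s' * y) := by
  refine ⟨by push_cast; ring, ?_⟩
  rw [← hg]; push_cast; ring

/-- Every run has a witness. -/
theorem run_wit : ∀ e : Ex, ∃ P, Wit B X₀ Z₀ (fun m V => ev m V e) (run B X₀ Z₀ e) P
  | .c n d => ⟨C (C n), {
      pack := by simp [pk, run]
      norm := by rw [norm2_int]; rfl
      scale := by simp [run]
      degz := by simp
      degx := degLe_C (by simp)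
      value := fun m V S U _ _ => by
        simp [rv, run, ev]
        field_simp }⟩
  | .x => ⟨C (C (B.x0 : ℤ) + C (B.x1 : ℤ) * X), {
      pack := by simp [pk, run]
      norm := by
        rw [norm2_C]
        refine (norm1_add _ _).trans ?_
        have := norm1_mul (C (B.x1 : ℤ)) X
        rw [norm1_C, norm1_X] at this
        rw [norm1_C]
        simp [run] at this ⊢
        omega
      scale := by simp [run]
      degz := (natDegree_C _).le
      degx := degLe_C (natDegree_add_le_of_degree_le (by simp [run])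
        ((natDegree_C_mul_le _ _).trans natDegree_X_le))
      value := fun m V S U hm _ => by
        simp [rv, run, ev]
        linarith }⟩
  | .z => ⟨C (C (B.z0 : ℤ)) + C (C (B.z1 : ℤ)) * X, {
      pack := by simp [pk, run]
      norm := by
        refine (norm2_add _ _).trans ?_
        have := norm2_mul (C (C (B.z1 : ℤ))) X
        rw [norm2_int, norm2_X] at this
        rw [norm2_int]
        simp [run] at this ⊢
        omega
      scale := by simp [run]
      degz := natDegree_add_le_of_degree_le (by simp [run])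
        ((natDegree_C_mul_le _ _).trans natDegree_X_le)
      degx := DegLe.add (degLe_C (by simp))
        ((degLe_C (i := 0) (by simp)).mul degLe_X)
      value := fun m V S U _ hV => by
        simp [rv, run, ev]
        linarith }⟩
  | .mul a b => by
    obtain ⟨P, hP⟩ := run_wit a
    obtain ⟨Q, hQ⟩ := run_wit b
    refine ⟨P * Q, ⟨?_, ?_, ?_, ?_, ?_, ?_⟩⟩
    · simp [run, map_mul, hP.pack, hQ.pack]
    · exact (norm2_mul _ _).trans (Nat.mul_le_mul hP.norm hQ.norm)
    · exact Nat.mul_pos hP.scale hQ.scale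
    · exact natDegree_mul_le.trans (add_le_add hP.degz hQ.degz)
    · exact hP.degx.mul hQ.degx
    · intro m V S U hm hV
      rw [map_mul, hP.value m V S U hm hV, hQ.value m V S U hm hV]
      simp only [run, ev]
      push_cast
      ring
  | .add a b => by
    obtain ⟨P, hP⟩ := run_wit a
    obtain ⟨Q, hQ⟩ := run_wit b
    set r := run B X₀ Z₀ a with hr
    set r' := run B X₀ Z₀ b with hr'
    obtain ⟨hs, hg⟩ := gcd_scale hP.scale hQ.scale
    obtain ⟨p1, p2, p3, p4, p5⟩ := lift_props B X₀ Z₀ hP (r'.s / r.s.gcd r'.s)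
      (max r.dx r'.dx) (max r.dz r'.dz) (le_max_left _ _) (le_max_left _ _)
    obtain ⟨q1, q2, q3, q4, q5⟩ := lift_props B X₀ Z₀ hQ (r.s / r.s.gcd r'.s)
      (max r.dx r'.dx) (max r.dz r'.dz) (le_max_right _ _) (le_max_right _ _)
    refine ⟨_ + _, ⟨?_, ?_, ?_, natDegree_add_le_of_degree_le p3 q3, p4.add q4, ?_⟩⟩
    · rw [map_add, p1, q1]; rfl
    · exact (norm2_add _ _).trans (add_le_add p2 q2)
    · exact hs
    · intro m V S U hm hV
      rw [map_add, p5 m V S U hm hV, q5 m V S U hm hV]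
      simp only [run, ev, ← hr, ← hr']
      obtain ⟨e1, e2⟩ := scale_align (ev m V a) (ev m V b) hg
      linear_combination -((B.nx * (1 + S)) ^ (max r.dx r'.dx) *
        (B.nz * (1 + U)) ^ (max r.dz r'.dz)) * e1 - ((B.nx * (1 + S)) ^ (max r.dx r'.dx) *
        (B.nz * (1 + U)) ^ (max r.dz r'.dz)) * e2
  | .sub a b => by
    obtain ⟨P, hP⟩ := run_wit a
    obtain ⟨Q, hQ⟩ := run_wit b
    set r := run B X₀ Z₀ a with hr
    set r' := run B X₀ Z₀ b with hr'
    obtain ⟨hs, hg⟩ := gcd_scale hP.scale hQ.scale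
    obtain ⟨p1, p2, p3, p4, p5⟩ := lift_props B X₀ Z₀ hP (r'.s / r.s.gcd r'.s)
      (max r.dx r'.dx) (max r.dz r'.dz) (le_max_left _ _) (le_max_left _ _)
    obtain ⟨q1, q2, q3, q4, q5⟩ := lift_props B X₀ Z₀ hQ (r.s / r.s.gcd r'.s)
      (max r.dx r'.dx) (max r.dz r'.dz) (le_max_right _ _) (le_max_right _ _)
    refine ⟨_ + -_, ⟨?_, ?_, ?_, natDegree_add_le_of_degree_le p3 (by rwa [natDegree_neg]),
      p4.add q4.neg, ?_⟩⟩
    · rw [map_add, map_neg, p1, q1, ← sub_eq_add_neg]; rfl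
    · exact (norm2_add _ _).trans (add_le_add p2 ((norm2_neg _).trans q2))
    · exact hs
    · intro m V S U hm hV
      rw [map_add, map_neg, p5 m V S U hm hV, q5 m V S U hm hV]
      simp only [run, ev, ← hr, ← hr']
      obtain ⟨e1, e2⟩ := scale_align (ev m V a) (ev m V b) hg
      linear_combination -((B.nx * (1 + S)) ^ (max r.dx r'.dx) *
        (B.nz * (1 + U)) ^ (max r.dz r'.dz)) * e1 + ((B.nx * (1 + S)) ^ (max r.dx r'.dx) *
        (B.nz * (1 + U)) ^ (max r.dz r'.dz)) * e2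

/-- Soundness of the digit test on one block of digits. -/
lemma digits_block {X₁ : ℤ} : ∀ (D k : ℕ) (p : ℤ[X]) (rest : ℤ),
    (∀ i, 2 * ((p.coeff i).natAbs : ℤ) < X₁) → (∀ i, D ≤ i → p.coeff i = 0) →
    digitsNonneg X₁ (D + k) (p.eval X₁ + X₁ ^ D * rest) = true →
    (∀ i, 0 ≤ p.coeff i) ∧ digitsNonneg X₁ k rest = true
  | 0, k, p, rest, _, hd, hc => by
    have hp : p = 0 := Polynomial.ext fun i => by simp [hd i (Nat.zero_le i)]
    subst hp
    simp at hc
    exact ⟨fun i => by simp, hc⟩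
  | D + 1, k, p, rest, hb, hd, hc => by
    rw [show D + 1 + k = (D + k) + 1 by omega, digitsNonneg, Bool.and_eq_true,
      decide_eq_true_eq] at hc
    have hv : p.eval X₁ + X₁ ^ (D + 1) * rest =
        p.coeff 0 + X₁ * (p.divX.eval X₁ + X₁ ^ D * rest) := by
      conv_lhs => rw [← X_mul_divX_add p]
      simp
      ring
    have h0 := hb 0
    have hX : 0 < X₁ := lt_of_le_of_lt (by positivity) h0
    rw [hv, Int.add_mul_emod_self_left, Int.add_mul_ediv_left _ _ hX.ne'] at hc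
    have hp0 : 0 ≤ p.coeff 0 := by
      by_contra hneg
      rw [not_le] at hneg
      have e : p.coeff 0 % X₁ = p.coeff 0 + X₁ := by
        rw [← Int.add_emod_right, Int.emod_eq_of_lt (by omega) (by omega)]
      omega
    have hq : p.coeff 0 / X₁ = 0 := Int.ediv_eq_zero_of_lt hp0 (by omega)
    rw [hq, zero_add] at hc
    obtain ⟨hrec, hk⟩ := digits_block D k p.divX rest (fun i => by rw [coeff_divX]; exact hb _)
      (fun i hi => by rw [coeff_divX]; exact hd _ (by omega)) hc.2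
    refine ⟨fun i => ?_, hk⟩
    cases i with
    | zero => exact hp0
    | succ i => simpa using hrec i

/-- Soundness of the digit test. -/
lemma digits_sound {X₁ : ℤ} (D : ℕ) : ∀ (n : ℕ) (P : ℤ[X][X]),
    (∀ j i, 2 * (((P.coeff j).coeff i).natAbs : ℤ) < X₁) → DegLe P (D - 1) → 0 < D →
    (∀ j, n ≤ j → P.coeff j = 0) →
    digitsNonneg X₁ (D * n) (pk X₁ (X₁ ^ D) P) = true → ∀ j i, 0 ≤ (P.coeff j).coeff i
  | 0, P, _, _, _, hn, _ => fun j i => by simp [hn j (Nat.zero_le j)]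
  | n + 1, P, hb, hd, hD, hn, hc => by
    have hv : pk X₁ (X₁ ^ D) P = (P.coeff 0).eval X₁ + X₁ ^ D * pk X₁ (X₁ ^ D) P.divX := by
      conv_lhs => rw [← X_mul_divX_add P]
      simp only [pk, map_add, map_mul, coe_eval₂RingHom, eval₂_X, eval₂_C, coe_evalRingHom]
      ring
    rw [hv, show D * (n + 1) = D + D * n by ring] at hc
    obtain ⟨h0, hr⟩ := digits_block D (D * n) _ _ (hb 0)
      (fun i hi => coeff_eq_zero_of_natDegree_lt (by have := hd 0; omega)) hc
    have ih := digits_sound D n P.divX (fun j i => by rw [coeff_divX]; exact hb _ i)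
      (fun j => by rw [coeff_divX]; exact hd _) hD
      (fun j hj => by rw [coeff_divX]; exact hn _ (by omega)) hr
    intro j i
    cases j with
    | zero => exact h0 i
    | succ j => simpa using ih j i

lemma rv_nonneg {P : ℤ[X][X]} (h : ∀ j i, 0 ≤ (P.coeff j).coeff i) {S U : ℝ} (hS : 0 ≤ S)
    (hU : 0 ≤ U) : 0 ≤ rv S U P := by
  rw [rv, coe_eval₂RingHom, eval₂_eq_sum, Polynomial.sum]
  refine Finset.sum_nonneg fun j _ => mul_nonneg ?_ (pow_nonneg hU _)
  rw [coe_eval₂RingHom, eval₂_eq_sum, Polynomial.sum]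
  exact Finset.sum_nonneg fun i _ => mul_nonneg (by simpa using h j i) (pow_nonneg hS _)

/-- A checked box consists of points where the expression is nonnegative. -/
theorem checkBox_sound {e : Ex} {bits D : ℕ} (h : checkBox e B bits D = true)
    (hm0 : (B.x0 : ℝ) ≤ m * B.nx) (hm1 : m * B.nx < B.x1)
    (hV0 : (B.z0 : ℝ) ≤ V * B.nz) (hV1 : V * B.nz < B.z1) : 0 ≤ ev m V e := by
  simp only [checkBox, Bool.and_eq_true, decide_eq_true_eq] at h
  obtain ⟨⟨⟨⟨hdx, hdz⟩, hn⟩, hD⟩, hdig⟩ := h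
  rw [ipow_eq] at hn hD hdig
  obtain ⟨P, hP⟩ := run_wit B ((2 ^ bits : ℕ) : ℤ) (((2 ^ bits : ℕ) : ℤ) ^ D) e
  have hc : ∀ j i, 0 ≤ (P.coeff j).coeff i := by
    refine digits_sound D _ P (fun j i => ?_) (hP.degx.mono (by omega)) (by omega)
      (fun j hj => coeff_eq_zero_of_natDegree_lt (by have := hP.degz; omega)) (hP.pack ▸ hdig)
    have a : ((P.coeff j).coeff i).natAbs ≤ norm2 P :=
      (le_pnorm Int.natAbs_zero _ i).trans (le_pnorm norm1_zero P j)
    have := hP.norm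
    exact_mod_cast (by omega : 2 * ((P.coeff j).coeff i).natAbs < 2 ^ bits)
  set S := (m * B.nx - B.x0) / (B.x1 - m * B.nx) with hS
  set U := (V * B.nz - B.z0) / (B.z1 - V * B.nz) with hU
  have a1 : (B.x1 : ℝ) - m * B.nx ≠ 0 := by linarith
  have a2 : (B.z1 : ℝ) - V * B.nz ≠ 0 := by linarith
  have hS0 : 0 ≤ S := div_nonneg (by linarith) (by linarith)
  have hU0 : 0 ≤ U := div_nonneg (by linarith) (by linarith)
  have e1 : m * (B.nx * (1 + S)) = B.x0 + B.x1 * S := by rw [hS]; field_simp; ring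
  have e2 : V * (B.nz * (1 + U)) = B.z0 + B.z1 * U := by rw [hU]; field_simp; ring
  have hv := hP.value m V S U e1 e2
  have h0 := rv_nonneg hc hS0 hU0
  rw [hv] at h0
  have hnx : (0 : ℝ) < B.nx := by exact_mod_cast hdx
  have hnz : (0 : ℝ) < B.nz := by exact_mod_cast hdz
  have hsc : (0 : ℝ) < (run B ((2 ^ bits : ℕ) : ℤ) (((2 ^ bits : ℕ) : ℤ) ^ D) e).s := by
    exact_mod_cast hP.scale
  have p1 : 0 < ((B.nx : ℝ) * (1 + S)) ^ (run B ((2 ^ bits : ℕ) : ℤ) (((2 ^ bits : ℕ) : ℤ) ^ D) e).dx := by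
    positivity
  have p2 : 0 < ((B.nz : ℝ) * (1 + U)) ^ (run B ((2 ^ bits : ℕ) : ℤ) (((2 ^ bits : ℕ) : ℤ) ^ D) e).dz := by
    positivity
  exact nonneg_of_mul_nonneg_right (nonneg_of_mul_nonneg_left (nonneg_of_mul_nonneg_left h0 p2) p1) hsc

/-- Subdivisions of a square in boxes. -/
inductive Cover where
  | leaf
  | out
  | splitX (a b : Cover)
  | splitZ (a b : Cover)

/-- Checks a subdivision; `out` boxes satisfy ` (1 - m)² V > num / dnm` throughout. -/
def checkCover (e : Ex) (num dnm bits D : ℕ) : Cover → Box → Bool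
  | .leaf, B => checkBox e B bits D
  | .out, B => decide (B.x1 ≤ B.nx) &&
      decide (num * B.nx ^ 2 * B.nz < dnm * ((B.nx - B.x1) ^ 2 * B.z0))
  | .splitX a b, ⟨nx, nz, x0, x1, z0, z1⟩ =>
      checkCover e num dnm bits D a ⟨2 * nx, nz, 2 * x0, x0 + x1, z0, z1⟩ &&
        checkCover e num dnm bits D b ⟨2 * nx, nz, x0 + x1, 2 * x1, z0, z1⟩
  | .splitZ a b, ⟨nx, nz, x0, x1, z0, z1⟩ =>
      checkCover e num dnm bits D a ⟨nx, 2 * nz, x0, x1, 2 * z0, z0 + z1⟩ &&
        checkCover e num dnm bits D b ⟨nx, 2 * nz, x0, x1, z0 + z1, 2 * z1⟩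

theorem checkCover_sound {e : Ex} {num dnm bits D : ℕ}
    (hreg : (1 - m) ^ 2 * V * dnm ≤ num) :
    ∀ (T : Cover) (B : Box), checkCover e num dnm bits D T B = true →
      (B.x0 : ℝ) ≤ m * B.nx → m * B.nx < B.x1 → (B.z0 : ℝ) ≤ V * B.nz → V * B.nz < B.z1 →
      0 ≤ ev m V e
  | .leaf, B, h, a, b, c, d => checkBox_sound B h a b c d
  | .out, B, h, a, b, c, d => by
    exfalso
    simp only [checkCover, Bool.and_eq_true, decide_eq_true_eq] at h
    have hlt : (num : ℝ) * (B.nx : ℝ) ^ 2 * B.nz < dnm * (((B.nx : ℝ) - B.x1) ^ 2 * B.z0) := by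
      rw [← Nat.cast_sub h.1]; exact_mod_cast h.2
    have h1 : (B.x1 : ℝ) ≤ B.nx := by exact_mod_cast h.1
    have h2 : ((B.nx : ℝ) - B.x1) ^ 2 ≤ (B.nx - m * B.nx) ^ 2 :=
      pow_le_pow_left₀ (by linarith) (by linarith) 2
    have h3 := mul_le_mul h2 c (Nat.cast_nonneg _) (sq_nonneg _)
    have h4 := mul_le_mul_of_nonneg_left h3 (Nat.cast_nonneg dnm)
    have h5 := mul_le_mul_of_nonneg_right hreg
      (by positivity : (0 : ℝ) ≤ (B.nx : ℝ) ^ 2 * B.nz)
    linarith
  | .splitX s t, ⟨nx, nz, x0, x1, z0, z1⟩, h, a, b, c, d => by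
    simp only [checkCover, Bool.and_eq_true] at h
    by_cases hx : m * ((2 * nx : ℕ) : ℝ) < ((x0 + x1 : ℕ) : ℝ)
    · exact checkCover_sound hreg s _ h.1 (by push_cast; linarith) hx c d
    · exact checkCover_sound hreg t _ h.2 (not_lt.1 hx) (by push_cast; linarith) c d
  | .splitZ s t, ⟨nx, nz, x0, x1, z0, z1⟩, h, a, b, c, d => by
    simp only [checkCover, Bool.and_eq_true] at h
    by_cases hx : V * ((2 * nz : ℕ) : ℝ) < ((z0 + z1 : ℕ) : ℝ)
    · exact checkCover_sound hreg s _ h.1 a b (by push_cast; linarith) hx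
    · exact checkCover_sound hreg t _ h.2 a b (not_lt.1 hx) (by push_cast; linarith)

/-- The unit square. -/
def unitBox : Box := ⟨1, 1, 0, 1, 0, 1⟩

theorem checkCover_unit {e : Ex} {num dnm bits D : ℕ} {T : Cover}
    (h : checkCover e num dnm bits D T unitBox = true) (hm0 : 0 ≤ m) (hm1 : m < 1) (hV0 : 0 ≤ V)
    (hV1 : V < 1) (hreg : (1 - m) ^ 2 * V * dnm ≤ num) : 0 ≤ ev m V e :=
  checkCover_sound hreg T unitBox h (by simpa [unitBox] using hm0)
    (by simpa [unitBox] using hm1) (by simpa [unitBox] using hV0) (by simpa [unitBox] using hV1)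

end Vale.Agent.P322.High
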