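import Mathlib
import Vale.Agent.P322.High.Check

/-!
The numerators of the rational inequalities behind the high-noise induction step, written once
for expressions and for real numbers, and their certified nonnegativity on the five regions.
-/

namespace Vale.Agent.P322.High

/-- The two variables and the rational constants of a target ring. -/
structure Vars (R : Type) where
  m : R
  V : R
  k : ℤ → ℕ → R

/-- Expressions. -/
def exVars : Vars Ex := ⟨Ex.x, Ex.z, Ex.q⟩

/-- Real values. -/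
noncomputable def reVars (m V : ℝ) : Vars ℝ :=
  ⟨m, V, fun n d => (n : ℝ) / (((d - 1 : ℕ) : ℝ) + 1)⟩

section Forms

variable {R : Type} [Add R] [Sub R] [Mul R] (o : Vars R) (t T : R)

def fa : R := o.k 1 1 + o.m
def fb : R := o.k 1 1 - o.m
def fA : R := fa o * fa o
def fB : R := fb o * fb o * o.V
def fa7 : R := fa o * fA o * fA o * fA o
def fB2 : R := fB o * fB o
def fB3 : R := fB2 o * fB o
def fB4 : R := fB2 o * fB2 o
def fB5 : R := fB4 o * fB o
def fB6 : R := fB5 o * fB o
def foB : R := o.k 1 1 - fB o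
def foT : R := o.k 1 1 - T * fB o
def fQ : R := o.k 4 1 * (fA o - fB o) + o.k 2 1 * fA o * foB o
def fW : R := fQ o * foB o * foT o T
def fD : R := o.k 8 1 * fa7 o * fW o T

def fTau1 : R := t
def fTau2 : R := o.k 2 1 * T * t - T * T
def fTau3 : R := o.k 3 1 * (T * T) * t - o.k 2 1 * (T * T * T)
def fTau4 : R := o.k 4 1 * (T * T * T) * t - o.k 3 1 * (T * T * T * T)
def fTau5 : R := o.k 5 1 * (T * T * T * T) * t - o.k 4 1 * (T * T * T * T * T)

def fS : R :=
  o.k 1 12 * fTau1 t * (fB o - fB2 o) + o.k 1 30 * fTau2 o t T * (fB o - fB3 o) +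
    o.k 1 56 * fTau3 o t T * (fB o - fB4 o) + o.k 1 90 * fTau4 o t T * (fB o - fB5 o) +
    o.k 1 132 * fTau5 o t T * (fB o - fB6 o)

def fQhat : R :=
  o.k 1 30 * fTau2 o t T + o.k 1 56 * fTau3 o t T + o.k 1 90 * fTau4 o t T +
    o.k 1 132 * fTau5 o t T

def fDs : R :=
  foB o * (o.k 5685 100000 * fB o + o.k 1518 100000 * fB2 o + o.k 685 100000 * fB3 o +
    o.k 387 100000 * fB4 o)

def fG : R :=
  o.k 1 12 * (o.k 1 1 - t) *
      ((fb o * (o.V * o.V) * (fa o * fA o) + fB2 o - o.k 2 1 * fB2 o * (fa o * fA o)) *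
        (fA o * fA o)) +
    o.k 1 30 * (o.k 1 1 - t * T) *
      ((fb o * (o.V * o.V * o.V) * (fa o * fA o * fA o) + fB3 o -
        o.k 2 1 * fB3 o * (fa o * fA o * fA o)) * fA o) +
    o.k 1 56 * (o.k 1 1 - t * (T * T)) *
      (fb o * (o.V * o.V * o.V * o.V) * fa7 o + fB4 o - o.k 2 1 * fB4 o * fa7 o)

def fN : R :=
  (o.k 8 1 * fa7 o * (fDs o + fS o t T) + o.k 4 1 * fG o t T) * fW o T -
    o.k 2 1 * (fB o * (fA o - o.k 1 1) * (fA o - fB o + o.k 5 1 * fA o * foB o) *
      (fa o * fA o * fA o) * (foB o * foT o T)) +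
    o.k 4 1 * (o.m * o.m * fB5 o * fa7 o * fQ o) * (foT o T - t * (T * T * T) * foB o)

def fP : R :=
  (o.k 8 1 * (fa7 o * fa o * fb o) * (o.k 1 2 + o.k 19314 100000 * (o.m * o.m)) -
      o.k 4 1 * (fA o * fA o * fA o * fb o * o.V) +
      o.k 1 12 * t * (o.k 8 1 * (fa7 o * fa o * fb o) -
        o.k 4 1 * (fA o * fA o * (fb o * (o.V * o.V) * (fa o * fA o) + fB2 o))) +
      fQhat o t T * (o.k 8 1 * (fa7 o * fa o * fb o) -
        o.k 4 1 * (fA o * (fb o * (o.V * o.V * o.V) * (fa o * fA o * fA o) + fB3 o)))) *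
    fW o T

def fLn : R := fb o * (o.k 30 1 * fA o + o.k 21 1 * (fa o * fb o) + fb o * fb o)
def fLd : R := fa o * (o.k 30 1 * fA o + o.k 36 1 * (fa o * fb o) + o.k 9 1 * (fb o * fb o))
def fOn : R := fB o * (o.k 60 1 * (fA o * fA o) - o.k 60 1 * (fA o * fB o) + o.k 11 1 * fB2 o)
def fOd : R :=
  o.k 2 1 * (o.k 60 1 * (fA o * fA o * fA o) - o.k 90 1 * (fA o * fA o * fB o) +
    o.k 36 1 * (fA o * fB2 o) - o.k 3 1 * fB3 o)
def fTn : R := T * fB o * (o.k 6 1 * fA o - o.k 5 1 * T * fB o)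
def fTd : R := o.k 2 1 * ((fA o - T * fB o) * (o.k 6 1 * fA o - o.k 2 1 * T * fB o))

def fPhiT : R :=
  fN o T T * (fLn o * fTd o T + fTn o T * fLd o) * fOd o +
    fP o T T * (fOn o * fTd o T - fTn o T * fOd o) * fLd o -
    fOn o * (fLn o * fTd o T + fTn o T * fLd o) * (fD o T * (o.k 1 2 * foB o))

def fPhi0 : R :=
  fN o (o.k 0 1) T * fLn o * fOd o + fP o (o.k 0 1) T * fOn o * fLd o -
    fOn o * fLn o * (fD o T * (o.k 1 2 * foB o))

def fCfT : R :=
  fP o T T * (fLd o * fTd o T) -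
    (fLn o * fTd o T + fTn o T * fLd o) * (fD o T * (o.k 1 2 * foB o))

def fCf0 : R := fP o (o.k 0 1) T * fLd o - fLn o * (fD o T * (o.k 1 2 * foB o))

def fSl : R := fP o T T - fP o (o.k 0 1) T - (fN o T T - fN o (o.k 0 1) T)

end Forms

/-- The five conditions on a region. -/
structure Conds (m V : ℝ) (T : ℝ) : Prop where
  phiT : 0 ≤ fPhiT (reVars m V) T
  phi0 : 0 ≤ fPhi0 (reVars m V) T
  cfT : 0 ≤ fCfT (reVars m V) T
  cf0 : 0 ≤ fCf0 (reVars m V) T
  slope : 0 ≤ fSl (reVars m V) T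

/-- All five checks for the end point `n / d` and the region ` (1 - m)² V ≤ num / dnm`. -/
def checks (n : ℤ) (d num dnm bits : ℕ) (T : Cover) : Bool :=
  checkCover (fPhiT exVars (Ex.q n d)) num dnm bits 41 T unitBox &&
    checkCover (fPhi0 exVars (Ex.q n d)) num dnm 200 37 .leaf unitBox &&
    checkCover (fCfT exVars (Ex.q n d)) num dnm 200 27 .leaf unitBox &&
    checkCover (fCf0 exVars (Ex.q n d)) num dnm 200 23 .leaf unitBox &&
    checkCover (fSl exVars (Ex.q n d)) num dnm 200 28 .leaf unitBox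

lemma conds_of_checks {n : ℤ} {d num dnm bits : ℕ} {T : Cover}
    (h : checks n d num dnm bits T = true) {m V : ℝ} (hm0 : 0 ≤ m) (hm1 : m < 1) (hV0 : 0 ≤ V)
    (hV1 : V < 1) (hreg : (1 - m) ^ 2 * V * dnm ≤ num) :
    Conds m V ((reVars m V).k n d) := by
  simp only [checks, Bool.and_eq_true] at h
  obtain ⟨⟨⟨⟨h1, h2⟩, h3⟩, h4⟩, h5⟩ := h
  exact ⟨checkCover_unit h1 hm0 hm1 hV0 hV1 hreg, checkCover_unit h2 hm0 hm1 hV0 hV1 hreg,
    checkCover_unit h3 hm0 hm1 hV0 hV1 hreg, checkCover_unit h4 hm0 hm1 hV0 hV1 hreg,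
    checkCover_unit h5 hm0 hm1 hV0 hV1 hreg⟩

/-- Crossover at least `7/50`: every pair. -/
theorem checkA : checks 324 625 1 1 340
    (.splitX (.splitZ .leaf (.splitX (.splitZ .leaf (.splitX (.splitZ .leaf .leaf) .leaf)) .leaf))
      .leaf) = true := by
  decide +kernel

/-- Crossover at least `33/250`: distance at most `147/200`. -/
theorem checkB4 : checks 8464 15625 21609 40000 480
    (.splitX (.splitZ .leaf (.splitX (.splitZ .leaf (.splitX .out (.splitZ (.splitX (.splitZ .leaf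
      (.splitX .out .leaf)) .leaf) (.splitX .out .leaf)))) .leaf)) .leaf) = true := by
  decide +kernel

/-- Crossover at least `1/8`: distance at most `129/200`. -/
theorem checkB3 : checks 9 16 16641 40000 300
    (.splitX (.splitZ .leaf (.splitX (.splitZ (.splitX .leaf .leaf) .out) .leaf)) .leaf) = true := by
  decide +kernel

/-- Crossover at least `23/200`: distance at most `101/200`. -/
theorem checkB2 : checks 5929 10000 10201 40000 420
    (.splitX (.splitZ .leaf (.splitX .out (.splitZ (.splitX (.splitZ .leaf (.splitX .out .leaf))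
      .leaf) (.splitX .out .leaf)))) .leaf) = true := by
  decide +kernel

/-- Crossover at least `21/200`: distance at most `83/200`. -/
theorem checkB1 : checks 6241 10000 6889 40000 370
    (.splitX (.splitZ (.splitX .leaf .leaf) (.splitX .out (.splitZ (.splitX .out .leaf) .out)))
      .leaf) = true := by
  decide +kernel

end Vale.Agent.P322.High
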