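import Mathlib

/-!
Pade bounds for the logarithm.
-/

open Real Set

namespace Vale.Agent.P322.High

lemma nonneg_of_deriv_nonneg {f f' : ℝ → ℝ} {b x : ℝ} (hx0 : 0 ≤ x) (hxb : x < b)
    (hf0 : 0 ≤ f 0) (hd : ∀ y, 0 ≤ y → y < b → HasDerivAt f (f' y) y ∧ 0 ≤ f' y) : 0 ≤ f x := by
  have h : MonotoneOn f (Ico 0 b) := by
    refine monotoneOn_of_hasDerivWithinAt_nonneg (f' := f') (convex_Ico 0 b)
      (fun y hy => (hd y hy.1 hy.2).1.continuousAt.continuousWithinAt)
      (fun y hy => (hd y (interior_subset hy).1 (interior_subset hy).2).1.hasDerivWithinAt)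
      fun y hy => (hd y (interior_subset hy).1 (interior_subset hy).2).2
  exact hf0.trans (h ⟨le_rfl, lt_of_le_of_lt hx0 hxb⟩ ⟨hx0, hxb⟩ hx0)

/-- The `[2/1]` approximant bounds `log (1 + x)` from above. -/
theorem log_one_add_le {x : ℝ} (hx : 0 ≤ x) : log (1 + x) ≤ x * (6 + x) / (6 + 4 * x) := by
  have key : 0 ≤ x * (6 + x) / (6 + 4 * x) - log (1 + x) := by
    refine nonneg_of_deriv_nonneg (b := x + 1)
      (f := fun y => y * (6 + y) / (6 + 4 * y) - log (1 + y))
      (f' := fun y => 4 * y ^ 3 / ((1 + y) * (6 + 4 * y) ^ 2)) hx (by linarith) (by simp)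
      fun y hy _ => ⟨?_, by positivity⟩
    have h6 : (6 : ℝ) + 4 * y ≠ 0 := by positivity
    have h1 : (1 : ℝ) + y ≠ 0 := by positivity
    refine ((((hasDerivAt_id y).mul ((hasDerivAt_id y).const_add 6)).div
      (((hasDerivAt_id y).const_mul 4).const_add 6) h6).sub
      (((hasDerivAt_id y).const_add 1).log h1)).congr_deriv ?_
    simp only [id_eq, Pi.mul_apply]
    field_simp
    ring
  linarith

/-- The `[3/2]` approximant bounds `log (1 + x)` from above. -/
theorem log_one_add_le' {x : ℝ} (hx : 0 ≤ x) :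
    log (1 + x) ≤ x * (30 + 21 * x + x ^ 2) / (30 + 36 * x + 9 * x ^ 2) := by
  have key : 0 ≤ x * (30 + 21 * x + x ^ 2) / (30 + 36 * x + 9 * x ^ 2) - log (1 + x) := by
    refine nonneg_of_deriv_nonneg (b := x + 1)
      (f := fun y => y * (30 + 21 * y + y ^ 2) / (30 + 36 * y + 9 * y ^ 2) - log (1 + y))
      (f' := fun y => 9 * y ^ 5 / ((1 + y) * (30 + 36 * y + 9 * y ^ 2) ^ 2)) hx (by linarith)
      (by simp) fun y hy _ => ⟨?_, by positivity⟩
    have h6 : (30 : ℝ) + 36 * y + 9 * y ^ 2 ≠ 0 := by positivity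
    have h1 : (1 : ℝ) + y ≠ 0 := by positivity
    refine ((((hasDerivAt_id y).mul ((((hasDerivAt_id y).const_mul 21).const_add 30).add
      (hasDerivAt_pow 2 y))).div
      ((((hasDerivAt_id y).const_mul 36).const_add 30).add ((hasDerivAt_pow 2 y).const_mul 9)) h6).sub
      (((hasDerivAt_id y).const_add 1).log h1)).congr_deriv ?_
    simp only [id_eq, Pi.mul_apply, Pi.add_apply]
    field_simp
    ring
  linarith

lemma pade33_den_pos {U : ℝ} (h0 : 0 ≤ U) (h1 : U ≤ 1) :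
    0 < 60 - 90 * U + 36 * U ^ 2 - 3 * U ^ 3 := by
  nlinarith [mul_nonneg (mul_nonneg h0 (sub_nonneg.2 h1)) (sub_nonneg.2 h1),
    mul_nonneg h0 (sub_nonneg.2 h1), sq_nonneg (1 - U)]

/-- The `[3/3]` approximant bounds `-log (1 - U)` from below. -/
theorem le_neg_log_one_sub {U : ℝ} (h0 : 0 ≤ U) (h1 : U < 1) :
    U * (60 - 60 * U + 11 * U ^ 2) / (60 - 90 * U + 36 * U ^ 2 - 3 * U ^ 3) ≤ -log (1 - U) := by
  have key : 0 ≤ -log (1 - U) -
      U * (60 - 60 * U + 11 * U ^ 2) / (60 - 90 * U + 36 * U ^ 2 - 3 * U ^ 3) := by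
    refine nonneg_of_deriv_nonneg (b := 1)
      (f := fun y => -log (1 - y) -
        y * (60 - 60 * y + 11 * y ^ 2) / (60 - 90 * y + 36 * y ^ 2 - 3 * y ^ 3))
      (f' := fun y => 9 * y ^ 6 / ((1 - y) * (60 - 90 * y + 36 * y ^ 2 - 3 * y ^ 3) ^ 2)) h0 h1
      (by simp) fun y hy hy1 => ⟨?_, ?_⟩
    · have h6 := (pade33_den_pos hy hy1.le).ne'
      have h2 : (1 : ℝ) - y ≠ 0 := by linarith
      refine ((((hasDerivAt_id y).const_sub 1).log h2).neg.sub
        (((hasDerivAt_id y).mul ((((hasDerivAt_id y).const_mul 60).const_sub 60).add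
          ((hasDerivAt_pow 2 y).const_mul 11))).div
          (((((hasDerivAt_id y).const_mul 90).const_sub 60).add
            ((hasDerivAt_pow 2 y).const_mul 36)).sub ((hasDerivAt_pow 3 y).const_mul 3))
          h6)).congr_deriv ?_
      simp only [id_eq, Pi.mul_apply, Pi.add_apply, Pi.sub_apply]
      generalize hD : (60 : ℝ) - 90 * y + 36 * y ^ 2 - 3 * y ^ 3 = D at h6 ⊢
      field_simp
      subst hD
      ring
    · have := pade33_den_pos hy hy1.le
      have : 0 < 1 - y := by linarith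
      positivity
  linarith

/-- Upper bound for `-log (1 - z)`. -/
theorem neg_log_one_sub_le {z : ℝ} (h0 : 0 ≤ z) (h1 : z < 1) :
    -log (1 - z) ≤ z * (6 - 5 * z) / ((1 - z) * (6 - 2 * z)) := by
  have hz : 0 < 1 - z := by linarith
  have h6 : 0 < 6 - 2 * z := by linarith
  have h := log_one_add_le (x := z / (1 - z)) (div_nonneg h0 hz.le)
  have e : 1 + z / (1 - z) = (1 - z)⁻¹ := by field_simp; ring
  rw [e, log_inv] at h
  refine h.trans (le_of_eq ?_)
  have e2 : 6 + 4 * (z / (1 - z)) = (6 - 2 * z) / (1 - z) := by field_simp; ring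
  rw [e2]
  field_simp
  ring

/-- Upper bound for `log x`, `x ≥ 1`. -/
theorem log_le_pade {x : ℝ} (hx : 1 ≤ x) : log x ≤ (x - 1) * (x + 5) / (4 * x + 2) := by
  have h := log_one_add_le (x := x - 1) (by linarith)
  rw [show 1 + (x - 1) = x by ring] at h
  refine h.trans (le_of_eq ?_)
  rw [show 6 + (x - 1) = x + 5 by ring, show 6 + 4 * (x - 1) = 4 * x + 2 by ring]

end Vale.Agent.P322.High
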