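import Mathlib
import Vale.Agent.P322.Basic

/-!
The power series of `phi`, the concavity gap as a pair of perspectives, and the resulting bounds.
-/

open Real Set Filter
open scoped Topology

namespace Vale.Agent.P322.High

/-- The coefficient of `x ^ (2 * k + 2)` in `phi x`. -/
noncomputable def pc (k : ℕ) : ℝ := 1 / ((2 * (k : ℝ) + 1) * (2 * (k : ℝ) + 2))

lemma pc_nonneg (k : ℕ) : 0 ≤ pc k := by unfold pc; positivity

lemma phi_eq {x : ℝ} (h0 : -1 < x) (h1 : x < 1) :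
    phi x = x * ath x + (log (1 + x) + log (1 - x)) / 2 := by
  rw [phi, binEntropy_eq_negMulLog_add_negMulLog_one_sub, negMulLog, negMulLog,
    show 1 - (1 - x) / 2 = (1 + x) / 2 by ring, log_div (by linarith) (by norm_num),
    log_div (by linarith) (by norm_num), ath]
  ring

lemma hasSum_phi_lt {x : ℝ} (h : |x| < 1) : HasSum (fun k => pc k * (x ^ 2) ^ (k + 1)) (phi x) := by
  obtain ⟨h0, h1⟩ := abs_lt.1 h
  have a := (hasSum_log_sub_log_of_abs_lt_one h).mul_left (x / 2)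
  have hx : |x ^ 2| < 1 := by rw [abs_pow]; exact pow_lt_one₀ (abs_nonneg x) h (by norm_num)
  have b := (hasSum_pow_div_log_of_abs_lt_one hx).div_const 2
  have e : phi x = x / 2 * (log (1 + x) - log (1 - x)) - -log (1 - x ^ 2) / 2 := by
    rw [phi_eq h0 h1, show (1 : ℝ) - x ^ 2 = (1 + x) * (1 - x) by ring,
      log_mul (by linarith) (by linarith), ath]
    ring
  rw [e]
  refine (a.sub b).congr_fun ?_
  intro k
  have : (2 * (k : ℝ) + 1) ≠ 0 := by positivity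
  have : (2 * (k : ℝ) + 2) ≠ 0 := by positivity
  have : ((k : ℝ) + 1) ≠ 0 := by positivity
  rw [pc]
  field_simp
  ring

lemma hasSum_pc : HasSum pc (log 2) := by
  have hev : ∀ᶠ x : ℝ in 𝓝[<] 1, x ∈ Ioo (0 : ℝ) 1 := Ioo_mem_nhdsLT (by norm_num)
  have hphi : Tendsto phi (𝓝[<] (1 : ℝ)) (𝓝 (log 2)) := by
    rw [← phi_one]
    exact (continuous_phi.tendsto 1).mono_left nhdsWithin_le_nhds
  have hle : ∀ n, ∑ k ∈ Finset.range n, pc k ≤ log 2 := fun n => by
    have hl : Tendsto (fun x : ℝ => ∑ k ∈ Finset.range n, pc k * (x ^ 2) ^ (k + 1)) (𝓝[<] 1)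
        (𝓝 (∑ k ∈ Finset.range n, pc k)) := by
      refine tendsto_nhdsWithin_of_tendsto_nhds ?_
      have : Continuous fun x : ℝ => ∑ k ∈ Finset.range n, pc k * (x ^ 2) ^ (k + 1) := by fun_prop
      simpa using this.tendsto 1
    refine le_of_tendsto_of_tendsto hl hphi ?_
    filter_upwards [hev] with x hx
    exact sum_le_hasSum _ (fun k _ => mul_nonneg (pc_nonneg k) (by positivity))
      (hasSum_phi_lt (abs_lt.2 ⟨by linarith [hx.1], hx.2⟩))
  have hs : Summable pc := summable_of_sum_range_le pc_nonneg hle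
  have h1 : log 2 ≤ ∑' k, pc k := by
    refine le_of_tendsto hphi ?_
    filter_upwards [hev] with x hx
    exact hasSum_le (fun k => mul_le_of_le_one_right (pc_nonneg k)
      (pow_le_one₀ (sq_nonneg x) (pow_le_one₀ hx.1.le hx.2.le)))
      (hasSum_phi_lt (abs_lt.2 ⟨by linarith [hx.1], hx.2⟩)) hs.hasSum
  have h2 : ∑' k, pc k ≤ log 2 := Real.tsum_le_of_sum_range_le pc_nonneg hle
  have := hs.hasSum
  rwa [le_antisymm h2 h1] at this

lemma hasSum_phi {x : ℝ} (h : |x| ≤ 1) : HasSum (fun k => pc k * (x ^ 2) ^ (k + 1)) (phi x) := by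
  rcases h.lt_or_eq with h' | h'
  · exact hasSum_phi_lt h'
  · have hx : x ^ 2 = 1 := by rw [← sq_abs, h']; norm_num
    have e : phi x = log 2 := by
      rcases abs_eq_abs.1 (h'.trans abs_one.symm) with rfl | rfl
      · exact phi_one
      · rw [phi_neg]; exact phi_one
    rw [e]
    simpa [hx] using hasSum_pc

/-- The series of `phi x - x ^ 2 / 2`. -/
lemma hasSum_phi_tail {x : ℝ} (h : |x| ≤ 1) :
    HasSum (fun k => pc (k + 1) * (x ^ 2) ^ (k + 2)) (phi x - x ^ 2 / 2) := by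
  have := (hasSum_nat_add_iff' 1).2 (hasSum_phi h)
  have e : ∑ i ∈ Finset.range 1, pc i * (x ^ 2) ^ (i + 1) = x ^ 2 / 2 := by
    norm_num [pc]
    ring
  rwa [e] at this

lemma abs_sqrt_mul_le {ρ r : ℝ} (h0 : 0 ≤ ρ) (h1 : ρ ≤ 1) (r0 : 0 ≤ r) (r1 : r ≤ 1) :
    |ρ * r| ≤ 1 := by
  rw [abs_of_nonneg (mul_nonneg h0 r0)]
  exact mul_le_one₀ h1 r0 r1

/-- The coefficient of `r ^ (2 * k + 4)` in `phi r - phi (ρ r) / ρ ^ 2`. -/
noncomputable def gc (t : ℝ) (k : ℕ) : ℝ := pc (k + 1) * (1 - t ^ (k + 1))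

lemma gc_nonneg {t : ℝ} (h0 : 0 ≤ t) (h1 : t ≤ 1) (k : ℕ) : 0 ≤ gc t k :=
  mul_nonneg (pc_nonneg _) (sub_nonneg.2 (pow_le_one₀ h0 h1))

/-- The series of `phi r - phi (ρ r) / ρ ^ 2`. -/
lemma hasSum_chi {ρ r : ℝ} (h0 : 0 < ρ) (h1 : ρ ≤ 1) (r0 : 0 ≤ r) (r1 : r ≤ 1) :
    HasSum (fun k => gc (ρ ^ 2) k * (r ^ 2) ^ (k + 2)) (phi r - phi (ρ * r) / ρ ^ 2) := by
  have a := hasSum_phi_tail (abs_le.2 ⟨by linarith, r1⟩ : |r| ≤ 1)
  have b := (hasSum_phi_tail (abs_sqrt_mul_le h0.le h1 r0 r1)).div_const (ρ ^ 2)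
  have hρ : ρ ^ 2 ≠ 0 := by positivity
  have e : phi r - phi (ρ * r) / ρ ^ 2 =
      phi r - r ^ 2 / 2 - (phi (ρ * r) - (ρ * r) ^ 2 / 2) / ρ ^ 2 := by
    field_simp
    ring
  rw [e]
  refine (a.sub b).congr_fun ?_
  intro k
  rw [gc, mul_pow ρ r, mul_pow (ρ ^ 2) (r ^ 2), pow_succ (ρ ^ 2) (k + 1)]
  field_simp

/-- The concavity gap of `phi` at `m ± d`. -/
noncomputable def pgap (m d : ℝ) : ℝ := (phi (m + d) + phi (m - d)) / 2 - phi m

lemma pgap_eq {m d : ℝ} (hm : 0 ≤ m) (hd : 0 ≤ d) (h : m + d < 1) :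
    pgap m d = ((1 - m) * phi (d / (1 - m)) + (1 + m) * phi (d / (1 + m))) / 2 := by
  have ha : (0 : ℝ) < 1 + m := by linarith
  have hb : (0 : ℝ) < 1 - m := by linarith
  have u0 : 0 ≤ d / (1 + m) := by positivity
  have u1 : d / (1 + m) < 1 := by rw [div_lt_one ha]; linarith
  have v0 : 0 ≤ d / (1 - m) := by positivity
  have v1 : d / (1 - m) < 1 := by rw [div_lt_one hb]; linarith
  have e1 : 1 + d / (1 + m) = (1 + (m + d)) / (1 + m) := by field_simp; ring
  have e2 : 1 - d / (1 + m) = (1 + (m - d)) / (1 + m) := by field_simp; ring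
  have e3 : 1 + d / (1 - m) = (1 - (m - d)) / (1 - m) := by field_simp; ring
  have e4 : 1 - d / (1 - m) = (1 - (m + d)) / (1 - m) := by field_simp; ring
  rw [pgap, phi_eq (by linarith) h, phi_eq (x := m - d) (by linarith) (by linarith),
    phi_eq (x := m) (by linarith) (by linarith), phi_eq (x := d / (1 - m)) (by linarith) v1,
    phi_eq (x := d / (1 + m)) (by linarith) u1]
  simp only [ath]
  rw [e1, e2, e3, e4, log_div (by linarith) ha.ne', log_div (by linarith) ha.ne',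
    log_div (by linarith) hb.ne', log_div (by linarith) hb.ne']
  field_simp
  ring

/-- The perspective average of `r ↦ r ^ (2 * k)` at the pair ` (m, d)`, with `B = d ^ 2`. -/
noncomputable def gsum (m B : ℝ) (k : ℕ) : ℝ :=
  ((1 - m) * (B / (1 - m) ^ 2) ^ k + (1 + m) * (B / (1 + m) ^ 2) ^ k) / 2

/-- The second moment bounds of the reciprocal powers. -/
lemma recip_pow_ge {m : ℝ} (hm : 0 ≤ m) (h1 : m < 1) : ∀ n : ℕ,
    2 + (n : ℝ) * (n + 1) * m ^ 2 ≤ (1 / (1 - m)) ^ n + (1 / (1 + m)) ^ n ∧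
      2 * (n : ℝ) * m ≤ (1 / (1 - m)) ^ n - (1 / (1 + m)) ^ n
  | 0 => by norm_num
  | n + 1 => by
    obtain ⟨hS, hD⟩ := recip_pow_ge hm h1 n
    set P := (1 / (1 - m)) ^ n with hP
    set Q := (1 / (1 + m)) ^ n with hQ
    have hb : (0 : ℝ) < 1 - m := by linarith
    have hs : (0 : ℝ) < 1 - m ^ 2 := by nlinarith
    have e1 : (1 / (1 - m)) ^ (n + 1) + (1 / (1 + m)) ^ (n + 1) =
        ((P + Q) + m * (P - Q)) / (1 - m ^ 2) := by
      rw [pow_succ, pow_succ, ← hP, ← hQ]; field_simp; ring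
    have e2 : (1 / (1 - m)) ^ (n + 1) - (1 / (1 + m)) ^ (n + 1) =
        ((P - Q) + m * (P + Q)) / (1 - m ^ 2) := by
      rw [pow_succ, pow_succ, ← hP, ← hQ]; field_simp; ring
    have hm2 : (0 : ℝ) ≤ (n : ℝ) * (n + 1) * m ^ 2 := by positivity
    have hnm : (0 : ℝ) ≤ (n : ℝ) * m := by positivity
    constructor
    · rw [e1, le_div_iff₀ hs]
      have := mul_le_mul_of_nonneg_left hD hm
      push_cast
      nlinarith [mul_nonneg (sq_nonneg m) (mul_nonneg (by positivity : (0 : ℝ) ≤ ((n : ℝ) + 1) * (n + 2)) (sq_nonneg m))]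
    · rw [e2, le_div_iff₀ hs]
      have := mul_le_mul_of_nonneg_left hS hm
      push_cast
      nlinarith [mul_nonneg (mul_nonneg (by positivity : (0 : ℝ) ≤ (n : ℝ) + 1) hm) (sq_nonneg m),
        mul_nonneg hm hm2]

lemma gsum_ge {m B : ℝ} (hm : 0 ≤ m) (h1 : m < 1) (hB : 0 ≤ B) (k : ℕ) :
    B ^ (k + 1) + (k + 1 : ℝ) * (2 * k + 1) * m ^ 2 * B ^ (k + 1) ≤ gsum m B (k + 1) := by
  have hb : (0 : ℝ) < 1 - m := by linarith
  have ha : (0 : ℝ) < 1 + m := by linarith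
  have h := mul_le_mul_of_nonneg_left (recip_pow_ge hm h1 (2 * k + 1)).1 (pow_nonneg hB (k + 1))
  have e : gsum m B (k + 1) =
      B ^ (k + 1) * ((1 / (1 - m)) ^ (2 * k + 1) + (1 / (1 + m)) ^ (2 * k + 1)) / 2 := by
    rw [gsum, div_pow, div_pow, ← pow_mul, ← pow_mul, show 2 * (k + 1) = (2 * k + 1) + 1 by ring,
      pow_succ (1 - m), pow_succ (1 + m), one_div_pow, one_div_pow]
    field_simp
  rw [e]
  push_cast at h
  linarith

lemma gsum_le_sigma {m B : ℝ} (hm : 0 ≤ m) (h1 : m < 1) (hB : 0 ≤ B) (hB1 : B ≤ (1 - m) ^ 2)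
    (k : ℕ) : gsum m B (k + 1) ≤ 1 - m ^ 2 := by
  have hb : (0 : ℝ) < 1 - m := by linarith
  have ha : (0 : ℝ) < 1 + m := by linarith
  have x1 : B / (1 - m) ^ 2 ≤ 1 := (div_le_one (by positivity)).2 hB1
  have y1 : B / (1 + m) ^ 2 ≤ (1 - m) / (1 + m) := by
    rw [div_le_div_iff₀ (by positivity) ha]
    nlinarith [mul_le_mul_of_nonneg_right hB1 ha.le, mul_nonneg (mul_nonneg hb.le ha.le) hm]
  have hq : (1 - m) / (1 + m) ≤ 1 := (div_le_one ha).2 (by linarith)
  have X : (B / (1 - m) ^ 2) ^ (k + 1) ≤ 1 := pow_le_one₀ (by positivity) x1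
  have Y : (B / (1 + m) ^ 2) ^ (k + 1) ≤ (1 - m) / (1 + m) :=
    (pow_le_of_le_one (by positivity) (y1.trans hq) (Nat.succ_ne_zero k)).trans y1
  have e : (1 + m) * ((1 - m) / (1 + m)) = 1 - m := by field_simp
  have := mul_le_mul_of_nonneg_left X hb.le
  have := mul_le_mul_of_nonneg_left Y ha.le
  unfold gsum
  nlinarith [mul_nonneg hb.le hm]

/-- A polynomial tangent to `t ^ n`. -/
noncomputable def tau (n : ℕ) (T t : ℝ) : ℝ := n * T ^ (n - 1) * t - (n - 1 : ℝ) * T ^ n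

lemma tau_le {T t : ℝ} (hT : 0 ≤ T) (ht : 0 ≤ t) : ∀ n : ℕ, 1 ≤ n → tau n T t ≤ t ^ n
  | 0, h => absurd h (by norm_num)
  | 1, _ => by simp [tau]
  | n + 2, _ => by
    have ih := mul_le_mul_of_nonneg_right (tau_le hT ht (n + 1) (by omega)) ht
    have h := mul_nonneg (mul_nonneg (by positivity : (0 : ℝ) ≤ (n : ℝ) + 1) (pow_nonneg hT n))
      (sq_nonneg (t - T))
    rw [← pow_succ] at ih
    refine le_trans ?_ ih
    simp only [tau, Nat.add_sub_cancel, show n + 2 - 1 = n + 1 by omega]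
    push_cast
    rw [pow_succ T (n + 1), pow_succ T n]
    linarith

/-- Bound on the deficit `c B - kappa` of `phi`, with `c = log 2 - 1 / 2`. -/
theorem deficit_le {d B : ℝ} (hd0 : 0 ≤ d) (hd : d < 1) (hB : B = d ^ 2) :
    (log 2 - 1 / 2) * B - (phi d - B / 2) ≤
      (1 - B) * (-log (1 - B) / 4 -
        (5685 / 100000 * B + 1518 / 100000 * B ^ 2 + 685 / 100000 * B ^ 3 +
          387 / 100000 * B ^ 4)) := by
  have hB0 : 0 ≤ B := hB ▸ sq_nonneg d
  have hB1 : B < 1 := hB ▸ pow_lt_one₀ hd0 hd two_ne_zero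
  set D : ℕ → ℝ := fun i => 1 / 4 * (1 / ((i : ℝ) + 1) - 1 / ((i : ℝ) + 2)) with hD
  have hD0 : ∀ i, pc (i + 1) ≤ D i := fun i => by
    simp only [hD, pc]
    push_cast
    rw [div_sub_div _ _ (by positivity) (by positivity), div_mul_div_comm,
      div_le_div_iff₀ (by positivity) (by positivity)]
    nlinarith [Nat.cast_nonneg (α := ℝ) i]
  have hDn : ∀ i, 0 ≤ D i := fun i => (pc_nonneg _).trans (hD0 i)
  have hsumD : ∀ n, ∑ i ∈ Finset.range n, D i = 1 / 4 * (1 - 1 / ((n : ℝ) + 1)) := by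
    intro n
    induction n with
    | zero => simp
    | succ n ih => rw [Finset.sum_range_succ, ih]; simp only [hD]; push_cast; ring
  have hDs : HasSum D (1 / 4) := by
    rw [hasSum_iff_tendsto_nat_of_nonneg hDn]
    simp only [hsumD]
    simpa using (tendsto_one_div_add_atTop_nhds_zero_nat.const_sub (1 : ℝ)).const_mul (1 / 4 : ℝ)
  have hy : ∀ i : ℕ, 0 ≤ B - B ^ (i + 2) := fun i =>
    sub_nonneg.2 (pow_le_of_le_one hB0 hB1.le (by omega))
  have hfin : ∀ n, ∑ i ∈ Finset.range n, D i * (B - B ^ (i + 2)) =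
      (1 - B) * ∑ j ∈ Finset.range n, (1 / (4 * ((j : ℝ) + 1)) - 1 / (4 * ((n : ℝ) + 1))) * B ^ (j + 1) := by
    intro n
    induction n with
    | zero => simp
    | succ n ih =>
      have hg : (1 - B) * ∑ j ∈ Finset.range (n + 1), B ^ (j + 1) = B - B ^ (n + 2) := by
        have := geom_sum_mul_neg B (n + 1)
        simp only [pow_succ _ _, ← Finset.sum_mul]
        linear_combination B * this
      rw [Finset.sum_range_succ, ih, ← hg]
      have hsplit : ∀ j : ℕ, (1 / (4 * ((j : ℝ) + 1)) - 1 / (4 * (((n + 1 : ℕ) : ℝ) + 1))) * B ^ (j + 1)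
          = (1 / (4 * ((j : ℝ) + 1)) - 1 / (4 * ((n : ℝ) + 1))) * B ^ (j + 1) + D n * B ^ (j + 1) := by
        intro j; simp only [hD]; push_cast; field_simp; ring
      simp only [hsplit, Finset.sum_add_distrib, ← Finset.mul_sum]
      rw [Finset.sum_range_succ (fun j => (1 / (4 * ((j : ℝ) + 1)) - 1 / (4 * ((n : ℝ) + 1))) * B ^ (j + 1))]
      ring
  have hlog := (hasSum_pow_div_log_of_abs_lt_one (abs_lt.2 ⟨by linarith, hB1⟩)).div_const 4
  have hs : Summable fun i => D i * (B - B ^ (i + 2)) :=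
    Summable.of_nonneg_of_le (fun i => mul_nonneg (hDn i) (hy i))
      (fun i => mul_le_of_le_one_right (hDn i) (by linarith [pow_nonneg hB0 (i + 2)])) hDs.summable
  have hup : ∑' i, D i * (B - B ^ (i + 2)) ≤ (1 - B) * (-log (1 - B) / 4) := by
    refine Real.tsum_le_of_sum_range_le (fun i => mul_nonneg (hDn i) (hy i)) fun n => ?_
    rw [hfin]
    refine mul_le_mul_of_nonneg_left (le_trans (Finset.sum_le_sum fun j _ => ?_)
      (sum_le_hasSum (Finset.range n) (fun j _ => by positivity) hlog)) (by linarith)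
    have : 0 ≤ 1 / (4 * ((n : ℝ) + 1)) * B ^ (j + 1) := by positivity
    have e : B ^ (j + 1) / ((j : ℝ) + 1) / 4 = 1 / (4 * ((j : ℝ) + 1)) * B ^ (j + 1) := by
      field_simp
    rw [sub_mul, e]
    linarith
  have hP := hasSum_pc
  have hP1 : HasSum (fun i => pc (i + 1)) (log 2 - 1 / 2) := by
    have := (hasSum_nat_add_iff' 1).2 hP
    simpa [pc] using this
  have hk := hasSum_phi_tail (x := d) (abs_le.2 ⟨by linarith, hd.le⟩)
  rw [← hB] at hk
  have hA : HasSum (fun i => pc (i + 1) * (B - B ^ (i + 2)))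
      ((log 2 - 1 / 2) * B - (phi d - B / 2)) :=
    ((hP1.mul_right B).sub hk).congr_fun fun i => mul_sub _ _ _
  have hE := (hasSum_nat_add_iff' 4).2 (hs.hasSum.sub hA)
  have hE0 := (hasSum_nat_add_iff' 4).2 ((hDs.sub hP1).mul_right (B - B ^ 5))
  have hle := hasSum_le (fun i => ?_) hE0 hE
  swap
  · rw [← sub_mul]
    exact mul_le_mul_of_nonneg_left
      (sub_le_sub_left (pow_le_pow_of_le_one hB0 hB1.le (by omega)) B)
      (sub_nonneg.2 (hD0 _))
  generalize ∑' i, D i * (B - B ^ (i + 2)) = S at hle hup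
  simp only [Finset.sum_range_succ, Finset.sum_range_zero, hD, pc] at hle
  norm_num at hle
  have l1 := log_two_lt_d9
  have hb : 0 ≤ (0.6931471808 - log 2) * (B - B ^ 5) :=
    mul_nonneg (by linarith) (sub_nonneg.2 (pow_le_of_le_one hB0 hB1.le (by norm_num)))
  have hB2 := pow_le_pow_of_le_one hB0 hB1.le (by norm_num : 1 ≤ 2)
  have hB3 := pow_le_pow_of_le_one hB0 hB1.le (by norm_num : 2 ≤ 3)
  have hB4 := pow_le_pow_of_le_one hB0 hB1.le (by norm_num : 3 ≤ 4)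
  have hB5 := pow_le_pow_of_le_one hB0 hB1.le (by norm_num : 4 ≤ 5)
  norm_num at hb hB2 ⊢
  linarith

end Vale.Agent.P322.High
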