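import Mathlib
import Vale.Agent.P322.High.Pade
import Vale.Agent.P322.High.Series
import Vale.Agent.P322.High.Forms
import Vale.Agent.P322.TanCert
import Vale.Agent.P322.Induct

/-!
The induction step at high noise: the tangent certificate at the pair of means suffices.
-/

set_option linter.unusedVariables false

open Real Set Filter
open scoped Topology

namespace Vale.Agent.P322.High

/-- The squared distance `B` of the pair ` (m, d)`, `V = (d / (1 - m)) ^ 2`. -/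
noncomputable def pB (m V : ℝ) : ℝ := (1 - m) ^ 2 * V

/-- The rational lower bound for the scaled defect of the concavity gap. -/
noncomputable def kLow (m V T t : ℝ) : ℝ :=
  (1 - pB m V) * (5685 / 100000 * pB m V + 1518 / 100000 * pB m V ^ 2 +
      685 / 100000 * pB m V ^ 3 + 387 / 100000 * pB m V ^ 4) +
    (1 / 12 * tau 1 T t * (pB m V - pB m V ^ 2) + 1 / 30 * tau 2 T t * (pB m V - pB m V ^ 3) +
      1 / 56 * tau 3 T t * (pB m V - pB m V ^ 4) + 1 / 90 * tau 4 T t * (pB m V - pB m V ^ 5) +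
      1 / 132 * tau 5 T t * (pB m V - pB m V ^ 6)) +
    (1 / 12 * (1 - t) * (gsum m (pB m V) 2 - pB m V ^ 2) +
      1 / 30 * (1 - t * T) * (gsum m (pB m V) 3 - pB m V ^ 3) +
      1 / 56 * (1 - t * T ^ 2) * (gsum m (pB m V) 4 - pB m V ^ 4)) -
    pB m V * ((1 + m) ^ 2 - 1) * ((1 + m) ^ 2 - pB m V + 5 * ((1 + m) ^ 2 * (1 - pB m V))) /
      (4 * (1 + m) ^ 2 * (4 * ((1 + m) ^ 2 - pB m V) + 2 * (1 + m) ^ 2 * (1 - pB m V))) +
    m ^ 2 / 2 * pB m V ^ 5 * (1 / (1 - pB m V) - t * T ^ 3 / (1 - T * pB m V))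

/-- The rational lower bound for the scaled margin at the mean. -/
noncomputable def pLow (m V T t : ℝ) : ℝ :=
  (1 - m ^ 2) * (1 / 2 + 19314 / 100000 * m ^ 2) - gsum m (pB m V) 1 / 2 +
    t / 12 * (1 - m ^ 2 - gsum m (pB m V) 2) +
    (1 / 30 * tau 2 T t + 1 / 56 * tau 3 T t + 1 / 90 * tau 4 T t + 1 / 132 * tau 5 T t) *
      (1 - m ^ 2 - gsum m (pB m V) 3)

/-- Upper bound for `log (2 / (1 + m))`. -/
noncomputable def lmUp (m : ℝ) : ℝ := fLn (reVars m 0) / fLd (reVars m 0)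

/-- Lower bound for `-log (1 - u²) / 2`. -/
noncomputable def loLow (m V : ℝ) : ℝ := fOn (reVars m V) / fOd (reVars m V)

/-- Upper bound for `-log (1 - T u²) / 2`. -/
noncomputable def ltUp (m V T : ℝ) : ℝ := fTn (reVars m V) T / fTd (reVars m V) T

lemma reVars_k (m V : ℝ) (n : ℤ) (d : ℕ) (hd : 0 < d) : (reVars m V).k n d = (n : ℝ) / d := by
  simp only [reVars]
  rw [Nat.cast_sub hd, Nat.cast_one, sub_add_cancel]

section Identities

variable {m V T t : ℝ}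

lemma rv_m : (reVars m V).m = m := rfl
lemma rv_V : (reVars m V).V = V := rfl
lemma rv_k (n : ℤ) (d : ℕ) : (reVars m V).k n d = (n : ℝ) / (((d - 1 : ℕ) : ℝ) + 1) := rfl

lemma fB_eq : fB (reVars m V) = pB m V := by
  simp only [fB, fb, pB, rv_m, rv_V, rv_k]
  norm_num1
  ring

lemma fA_eq : fA (reVars m V) = (1 + m) ^ 2 := by
  simp only [fA, fa, rv_m, rv_k]
  norm_num
  ring

lemma gsum_eq (hm : m < 1) (k : ℕ) :
    gsum m (pB m V) k = ((1 - m) * V ^ k + (1 + m) * (pB m V / (1 + m) ^ 2) ^ k) / 2 := by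
  have h : (1 : ℝ) - m ≠ 0 := by linarith
  rw [gsum, show pB m V / (1 - m) ^ 2 = V by rw [pB]; field_simp]

lemma fG_eq (hm : 0 ≤ m) (hm1 : m < 1) :
    fG (reVars m V) t T = 2 * (1 + m) ^ 7 * (1 / 12 * (1 - t) * (gsum m (pB m V) 2 - pB m V ^ 2) +
      1 / 30 * (1 - t * T) * (gsum m (pB m V) 3 - pB m V ^ 3) +
      1 / 56 * (1 - t * T ^ 2) * (gsum m (pB m V) 4 - pB m V ^ 4)) := by
  have h1 : (0 : ℝ) < 1 + m := by linarith
  simp only [fG, fa7, fB2, fB3, fB4, fA_eq, fB_eq, fa, fb, rv_m, rv_V, rv_k, gsum_eq hm1]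
  generalize pB m V = B
  norm_num
  field_simp

lemma fDs_eq : fDs (reVars m V) = (1 - pB m V) * (5685 / 100000 * pB m V +
    1518 / 100000 * pB m V ^ 2 + 685 / 100000 * pB m V ^ 3 + 387 / 100000 * pB m V ^ 4) := by
  simp only [fDs, foB, fB2, fB3, fB4, fB_eq, rv_k]
  norm_num1
  ring

lemma fS_eq : fS (reVars m V) t T =
    1 / 12 * tau 1 T t * (pB m V - pB m V ^ 2) + 1 / 30 * tau 2 T t * (pB m V - pB m V ^ 3) +
      1 / 56 * tau 3 T t * (pB m V - pB m V ^ 4) + 1 / 90 * tau 4 T t * (pB m V - pB m V ^ 5) +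
      1 / 132 * tau 5 T t * (pB m V - pB m V ^ 6) := by
  simp only [fS, fTau1, fTau2, fTau3, fTau4, fTau5, fB2, fB3, fB4, fB5, fB6, fB_eq, rv_k, tau]
  norm_num
  ring

lemma combine {a A B X Q oB oT tT m2 R : ℝ} (ha : a ≠ 0) (hA : A = a ^ 2) (hQ : Q ≠ 0)
    (hoB : oB ≠ 0) (hoT : oT ≠ 0) :
    8 * (a * A * A * A) * R * (Q * oB * oT) -
        2 * (B * (A - 1) * X * (a * A * A) * (oB * oT)) +
        4 * (m2 * B ^ 5 * (a * A * A * A) * Q) * (oT - tT * oB) =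
      (R - B * (A - 1) * X / (4 * A * Q) + m2 / 2 * B ^ 5 * (1 / oB - tT / oT)) *
        (8 * (a * A * A * A) * (Q * oB * oT)) := by
  subst hA
  field_simp
  ring

lemma fN_eq (hm : 0 ≤ m) (hm1 : m < 1) (hA : 0 < (1 + m) ^ 2 - pB m V) (hB : 0 < 1 - pB m V)
    (hT : 0 < 1 - T * pB m V) :
    fN (reVars m V) t T = kLow m V T t * fD (reVars m V) T := by
  have h1 : (0 : ℝ) < 1 + m := by linarith
  have hQ : 0 < 4 * ((1 + m) ^ 2 - pB m V) + 2 * (1 + m) ^ 2 * (1 - pB m V) := by positivity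
  have h := combine (a := 1 + m) (A := (1 + m) ^ 2) (B := pB m V) (tT := t * T ^ 3) (m2 := m ^ 2)
    (X := (1 + m) ^ 2 - pB m V + 5 * ((1 + m) ^ 2 * (1 - pB m V)))
    (R := (1 - pB m V) * (5685 / 100000 * pB m V + 1518 / 100000 * pB m V ^ 2 +
        685 / 100000 * pB m V ^ 3 + 387 / 100000 * pB m V ^ 4) +
      (1 / 12 * tau 1 T t * (pB m V - pB m V ^ 2) + 1 / 30 * tau 2 T t * (pB m V - pB m V ^ 3) +
        1 / 56 * tau 3 T t * (pB m V - pB m V ^ 4) + 1 / 90 * tau 4 T t * (pB m V - pB m V ^ 5) +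
        1 / 132 * tau 5 T t * (pB m V - pB m V ^ 6)) +
      (1 / 12 * (1 - t) * (gsum m (pB m V) 2 - pB m V ^ 2) +
        1 / 30 * (1 - t * T) * (gsum m (pB m V) 3 - pB m V ^ 3) +
        1 / 56 * (1 - t * T ^ 2) * (gsum m (pB m V) 4 - pB m V ^ 4))) h1.ne' rfl hQ.ne' hB.ne' hT.ne'
  simp only [fN, fD, fW, fQ, foB, foT, fDs_eq, fS_eq, fG_eq hm hm1, fa7, fB5, fB4, fB2, fA_eq,
    fB_eq, fa, rv_m, rv_k, kLow]
  norm_num at h ⊢
  linear_combination h

lemma fP_eq (hm : 0 ≤ m) (hm1 : m < 1) :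
    fP (reVars m V) t T = pLow m V T t * fD (reVars m V) T := by
  have h1 : (0 : ℝ) < 1 + m := by linarith
  simp only [fP, fD, fQhat, fa7, fB2, fB3, fTau2, fTau3, fTau4, fTau5, fB_eq, fA_eq, fa, fb, rv_m,
    rv_V, rv_k, pLow, tau, gsum_eq hm1]
  generalize fW _ T = W
  generalize hBd : pB m V = B
  have hb : (1 - m) * V * (1 + m) + B = (1 - m) * (1 + m) * V + B := by ring
  norm_num
  field_simp
  rw [← hBd, pB]
  ring

end Identities

/-- Linearity of the bounds in `t`. -/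
lemma low_linear (m V T t s : ℝ) (hs : t = s * T) :
    kLow m V T t = (1 - s) * kLow m V T 0 + s * kLow m V T T ∧
      pLow m V T t = (1 - s) * pLow m V T 0 + s * pLow m V T T := by
  subst hs
  simp only [kLow, pLow, tau]
  constructor <;> ring

section Main

variable {m d ρ T V : ℝ}

lemma phi_scaled_le (h0 : 0 < ρ) (h1 : ρ ≤ 1) {r : ℝ} (r0 : 0 ≤ r) (r1 : r ≤ 1) :
    phi (ρ * r) / ρ ^ 2 ≤ r ^ 2 / 2 + ρ ^ 2 / 12 * r ^ 4 +
      (phi ρ / ρ ^ 2 - 1 / 2 - ρ ^ 2 / 12) * r ^ 6 := by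
  have a := (hasSum_nat_add_iff' 2).2 (hasSum_phi (abs_sqrt_mul_le h0.le h1 r0 r1))
  have b := ((hasSum_nat_add_iff' 2).2 (hasSum_phi (x := ρ) (abs_le.2 ⟨by linarith, h1⟩))).mul_right
    (r ^ 6)
  have h := hasSum_le (fun n => ?_) a b
  swap
  · rw [mul_pow ρ r, mul_pow (ρ ^ 2) (r ^ 2), ← mul_assoc]
    refine mul_le_mul_of_nonneg_left ?_ (mul_nonneg (pc_nonneg _) (by positivity))
    rw [← pow_mul]
    exact pow_le_pow_of_le_one r0 r1 (by omega)
  norm_num [Finset.sum_range_succ, pc] at h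
  have hne : ρ ^ 2 ≠ 0 := by positivity
  rw [div_le_iff₀ (by positivity)]
  have e : (phi ρ / ρ ^ 2 - 1 / 2 - ρ ^ 2 / 12) * ρ ^ 2 = phi ρ - ρ ^ 2 / 2 - ρ ^ 4 / 12 := by
    field_simp
  rw [add_mul, mul_right_comm (phi ρ / ρ ^ 2 - 1 / 2 - ρ ^ 2 / 12) (r ^ 6), e]
  ring_nf at h ⊢
  linarith

lemma qhat_le (h0 : 0 < ρ) (h1 : ρ ≤ 1) (hT : 0 ≤ T) :
    1 / 30 * tau 2 T (ρ ^ 2) + 1 / 56 * tau 3 T (ρ ^ 2) + 1 / 90 * tau 4 T (ρ ^ 2) +
      1 / 132 * tau 5 T (ρ ^ 2) ≤ phi ρ / ρ ^ 2 - 1 / 2 - ρ ^ 2 / 12 := by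
  have hs := sum_le_hasSum (Finset.range 6) (fun k _ => mul_nonneg (pc_nonneg k) (by positivity))
    (hasSum_phi (x := ρ) (abs_le.2 ⟨by linarith, h1⟩))
  norm_num [Finset.sum_range_succ, pc] at hs
  have t0 : 0 ≤ ρ ^ 2 := sq_nonneg ρ
  have e2 := tau_le hT t0 2 (by norm_num)
  have e3 := tau_le hT t0 3 (by norm_num)
  have e4 := tau_le hT t0 4 (by norm_num)
  have e5 := tau_le hT t0 5 (by norm_num)
  have hp : 0 < ρ ^ 2 := by positivity
  have hq : 1 / 2 + ρ ^ 2 / 12 + (1 / 30 * (ρ ^ 2) ^ 2 + 1 / 56 * (ρ ^ 2) ^ 3 +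
      1 / 90 * (ρ ^ 2) ^ 4 + 1 / 132 * (ρ ^ 2) ^ 5) ≤ phi ρ / ρ ^ 2 := by
    rw [le_div_iff₀ hp]
    ring_nf at hs ⊢
    linarith
  linarith

lemma pLow_le (h0 : 0 < ρ) (h1 : ρ ≤ 1) (hT : 0 ≤ T) (hm : 0 ≤ m) (hd : 0 ≤ d) (hmd : m + d < 1)
    (hV : V = (d / (1 - m)) ^ 2) :
    pLow m V T (ρ ^ 2) ≤ (ρ ^ 2 * (log 2 - phi m) - (ρ ^ 2 * log 2 - phi ρ) * (1 - m ^ 2) -
      pgap m (ρ * d)) / ρ ^ 2 := by
  have hb : (0 : ℝ) < 1 - m := by linarith
  have ha : (0 : ℝ) < 1 + m := by linarith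
  have hρd : 0 ≤ ρ * d := mul_nonneg h0.le hd
  have v0 : 0 ≤ d / (1 - m) := by positivity
  have v1 : d / (1 - m) ≤ 1 := (div_le_one hb).2 (by linarith)
  have u0 : 0 ≤ d / (1 + m) := by positivity
  have u1 : d / (1 + m) ≤ 1 := (div_le_one ha).2 (by linarith)
  have sv := phi_scaled_le h0 h1 v0 v1
  have su := phi_scaled_le h0 h1 u0 u1
  have hB : pB m V = d ^ 2 := by rw [pB, hV]; field_simp
  have hs := gsum_le_sigma hm (by linarith) (sq_nonneg d) (pow_le_pow_left₀ hd (by linarith) 2) 2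
  have hq := mul_le_mul_of_nonneg_right (qhat_le h0 h1 hT) (sub_nonneg.2 hs)
  have hη : (1 - m ^ 2) * (1 / 2 + 19314 / 100000 * m ^ 2) ≤
      log 2 - phi m - (log 2 - 1 / 2) * (1 - m ^ 2) := by
    have a := hasSum_phi_tail (abs_le.2 ⟨by linarith, (by linarith : m ≤ 1)⟩ : |m| ≤ 1)
    have b := ((hasSum_nat_add_iff' 1).2 hasSum_pc).mul_right (m ^ 4)
    have h := hasSum_le (fun n => ?_) a b
    swap
    · refine mul_le_mul_of_nonneg_left ?_ (pc_nonneg _)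
      rw [← pow_mul]
      exact pow_le_pow_of_le_one hm (by linarith) (by omega)
    norm_num [pc] at h
    have l0 := mul_nonneg (mul_nonneg (by linarith [log_two_gt_d9] : (0 : ℝ) ≤ log 2 - 1 / 2 - 19314 / 100000)
      (sq_nonneg m)) (by nlinarith : (0 : ℝ) ≤ 1 - m ^ 2)
    ring_nf at h l0 ⊢
    linarith
  have hg : pgap m (ρ * d) / ρ ^ 2 ≤ gsum m (d ^ 2) 1 / 2 + ρ ^ 2 / 12 * gsum m (d ^ 2) 2 +
      (phi ρ / ρ ^ 2 - 1 / 2 - ρ ^ 2 / 12) * gsum m (d ^ 2) 3 := by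
    rw [pgap_eq hm hρd (by nlinarith), mul_div_assoc ρ d, mul_div_assoc ρ d]
    have a := mul_le_mul_of_nonneg_left sv hb.le
    have b := mul_le_mul_of_nonneg_left su ha.le
    simp only [gsum]
    rw [← div_pow, ← div_pow]
    have e : ∀ X Y : ℝ, ((1 - m) * X + (1 + m) * Y) / 2 / ρ ^ 2 =
        ((1 - m) * (X / ρ ^ 2) + (1 + m) * (Y / ρ ^ 2)) / 2 := fun X Y => by ring
    rw [e]
    simp only [← pow_mul]
    norm_num
    linarith
  have e : (ρ ^ 2 * (log 2 - phi m) - (ρ ^ 2 * log 2 - phi ρ) * (1 - m ^ 2) - pgap m (ρ * d)) / ρ ^ 2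
      = (log 2 - phi m - (log 2 - 1 / 2) * (1 - m ^ 2)) + (phi ρ / ρ ^ 2 - 1 / 2) * (1 - m ^ 2) -
        pgap m (ρ * d) / ρ ^ 2 := by
    field_simp
    ring
  rw [e, pLow, hB]
  linarith

lemma hasSum_defect (h0 : 0 < ρ) (h1 : ρ ≤ 1) (hm : 0 ≤ m) (hd : 0 ≤ d) (hmd : m + d < 1) :
    HasSum (fun k => gc (ρ ^ 2) k * (gsum m (d ^ 2) (k + 2) - d ^ 2))
      ((ρ ^ 2 * pgap m d - pgap m (ρ * d) - (ρ ^ 2 * log 2 - phi ρ) * d ^ 2) / ρ ^ 2) := by
  have hb : (0 : ℝ) < 1 - m := by linarith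
  have ha : (0 : ℝ) < 1 + m := by linarith
  have v0 : 0 ≤ d / (1 - m) := by positivity
  have v1 : d / (1 - m) ≤ 1 := (div_le_one hb).2 (by linarith)
  have u0 : 0 ≤ d / (1 + m) := by positivity
  have u1 : d / (1 + m) ≤ 1 := (div_le_one ha).2 (by linarith)
  have hρd : 0 ≤ ρ * d := mul_nonneg h0.le hd
  have a := (((hasSum_chi h0 h1 v0 v1).mul_left (1 - m)).add
    ((hasSum_chi h0 h1 u0 u1).mul_left (1 + m))).div_const 2
  have b := (hasSum_chi h0 h1 zero_le_one le_rfl).mul_right (d ^ 2)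
  have e : (ρ ^ 2 * pgap m d - pgap m (ρ * d) - (ρ ^ 2 * log 2 - phi ρ) * d ^ 2) / ρ ^ 2 =
      ((1 - m) * (phi (d / (1 - m)) - phi (ρ * (d / (1 - m))) / ρ ^ 2) +
        (1 + m) * (phi (d / (1 + m)) - phi (ρ * (d / (1 + m))) / ρ ^ 2)) / 2 -
      (phi 1 - phi (ρ * 1) / ρ ^ 2) * d ^ 2 := by
    have hne : ρ ^ 2 ≠ 0 := by positivity
    rw [pgap_eq hm hd hmd, pgap_eq hm hρd (by nlinarith), phi_one, mul_one, mul_div_assoc ρ d,
      mul_div_assoc ρ d]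
    field_simp
    ring
  rw [e]
  refine (a.sub b).congr_fun fun k => ?_
  simp only [gsum, one_pow, div_pow]
  ring

lemma below_le {t T B S : ℝ} (t0 : 0 ≤ t) (hT : 0 ≤ T) (hd : 0 ≤ d) (hd1 : d < 1)
    (hB : B = d ^ 2) (sS : HasSum (fun k => gc t k * (B - B ^ (k + 2))) S) (ht1 : t ≤ 1) :
    S + (1 / 12 * tau 1 T t * (B - B ^ 2) + 1 / 30 * tau 2 T t * (B - B ^ 3) +
      1 / 56 * tau 3 T t * (B - B ^ 4) + 1 / 90 * tau 4 T t * (B - B ^ 5) +
      1 / 132 * tau 5 T t * (B - B ^ 6)) ≤ (log 2 - 1 / 2) * B - (phi d - B / 2) := by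
  have hB0 : 0 ≤ B := hB ▸ sq_nonneg d
  have hB1 : B < 1 := hB ▸ pow_lt_one₀ hd hd1 two_ne_zero
  have hy : ∀ k : ℕ, 0 ≤ B - B ^ (k + 2) := fun k =>
    sub_nonneg.2 (pow_le_of_le_one hB0 hB1.le (by omega))
  have hP1 : HasSum (fun i => pc (i + 1)) (log 2 - 1 / 2) := by
    simpa [pc] using (hasSum_nat_add_iff' 1).2 hasSum_pc
  have hk := hasSum_phi_tail (x := d) (abs_le.2 ⟨by linarith, hd1.le⟩)
  rw [← hB] at hk
  have sA : HasSum (fun i => pc (i + 1) * (B - B ^ (i + 2)))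
      ((log 2 - 1 / 2) * B - (phi d - B / 2)) :=
    ((hP1.mul_right B).sub hk).congr_fun fun i => mul_sub _ _ _
  have hS := sum_le_hasSum (Finset.range 5) (fun k _ => ?_) (sA.sub sS)
  swap
  · rw [← sub_mul]
    exact mul_nonneg (sub_nonneg.2
      (mul_le_of_le_one_right (pc_nonneg _) (by linarith [pow_nonneg t0 (k + 1)]))) (hy k)
  simp only [Finset.sum_range_succ, Finset.sum_range_zero, gc, pc] at hS
  have r1 := mul_le_mul_of_nonneg_right (tau_le hT t0 1 le_rfl) (hy 0)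
  have r2 := mul_le_mul_of_nonneg_right (tau_le hT t0 2 (by norm_num)) (hy 1)
  have r3 := mul_le_mul_of_nonneg_right (tau_le hT t0 3 (by norm_num)) (hy 2)
  have r4 := mul_le_mul_of_nonneg_right (tau_le hT t0 4 (by norm_num)) (hy 3)
  have r5 := mul_le_mul_of_nonneg_right (tau_le hT t0 5 (by norm_num)) (hy 4)
  norm_num at hS r1 r2 r3 r4 r5 ⊢
  linarith

lemma above_ge {t T B S : ℝ} (t0 : 0 ≤ t) (htT : t ≤ T) (hT1 : T < 1) (hm : 0 ≤ m) (hm1 : m < 1)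
    (hB0 : 0 ≤ B) (hB1 : B < 1)
    (sG : HasSum (fun k => gc t k * (gsum m B (k + 2) - B ^ (k + 2))) S) :
    1 / 12 * (1 - t) * (gsum m B 2 - B ^ 2) + 1 / 30 * (1 - t * T) * (gsum m B 3 - B ^ 3) +
      1 / 56 * (1 - t * T ^ 2) * (gsum m B 4 - B ^ 4) +
      m ^ 2 / 2 * B ^ 5 * (1 / (1 - B) - t * T ^ 3 / (1 - T * B)) ≤ S := by
  have hT : 0 ≤ T := t0.trans htT
  have t1 : t ≤ 1 := by linarith
  have hTB : T * B < 1 := lt_of_le_of_lt (mul_le_of_le_one_right hT hB1.le) hT1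
  have sgeo : HasSum (fun n => m ^ 2 / 2 * (B ^ 5 * B ^ n - t * T ^ 3 * B ^ 5 * (T * B) ^ n))
      (m ^ 2 / 2 * (B ^ 5 * (1 - B)⁻¹ - t * T ^ 3 * B ^ 5 * (1 - T * B)⁻¹)) :=
    (((hasSum_geometric_of_lt_one hB0 hB1).mul_left (B ^ 5)).sub
      ((hasSum_geometric_of_lt_one (mul_nonneg hT hB0) hTB).mul_left (t * T ^ 3 * B ^ 5))).mul_left _
  have hpow : ∀ j : ℕ, t ^ (j + 1) ≤ t * T ^ j := fun j => by
    rw [pow_succ']; exact mul_le_mul_of_nonneg_left (pow_le_pow_left₀ t0 htT j) t0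
  have hg : ∀ k, 0 ≤ gc t k := gc_nonneg t0 t1
  have htail := hasSum_le (fun n => ?_) sgeo ((hasSum_nat_add_iff' 3).2 sG)
  swap
  · have hge := gsum_ge hm hm1 hB0 (n + 4)
    have hc : 0 ≤ 1 - t * T ^ (n + 3) := sub_nonneg.2
      (mul_le_one₀ t1 (by positivity) (pow_le_one₀ hT hT1.le))
    refine le_trans ?_ (mul_le_mul_of_nonneg_left
      (show ((n + 4 : ℕ) + 1 : ℝ) * (2 * (n + 4 : ℕ) + 1) * m ^ 2 * B ^ (n + 5) ≤
        gsum m B (n + 5) - B ^ (n + 5) by linarith) (hg _))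
    refine le_trans (le_of_eq ?_) (mul_le_mul_of_nonneg_right
      (mul_le_mul_of_nonneg_left (sub_le_sub_left (hpow (n + 3)) 1) (pc_nonneg (n + 4)))
      (by positivity))
    have hB5 : B ^ 5 * B ^ n = B ^ (n + 5) := by rw [← pow_add, add_comm]
    rw [mul_pow, show t * T ^ 3 * B ^ 5 * (T ^ n * B ^ n) = t * (T ^ 3 * T ^ n) * (B ^ 5 * B ^ n) by
      ring, hB5, ← pow_add, add_comm 3 n, pc]
    push_cast
    field_simp
    ring
  simp only [Finset.sum_range_succ, Finset.sum_range_zero, gc, pc] at htail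
  have n0 : ∀ k : ℕ, 0 ≤ gsum m B (k + 1) - B ^ (k + 1) := fun k => by
    have := gsum_ge hm hm1 hB0 k
    have : (0 : ℝ) ≤ (k + 1 : ℝ) * (2 * k + 1) * m ^ 2 * B ^ (k + 1) := by positivity
    linarith
  have w3 := mul_le_mul_of_nonneg_right (hpow 1) (n0 2)
  have w4 := mul_le_mul_of_nonneg_right (hpow 2) (n0 3)
  norm_num at htail w3 w4 ⊢
  simp only [inv_eq_one_div] at htail ⊢
  ring_nf at htail w3 w4 ⊢
  linarith

lemma pade_term {a B : ℝ} (ha : 1 ≤ a) (hB1 : B < 1) :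
    (1 - B) / 4 * (((1 - B / a ^ 2) / (1 - B) - 1) * ((1 - B / a ^ 2) / (1 - B) + 5) /
      (4 * ((1 - B / a ^ 2) / (1 - B)) + 2)) =
      B * (a ^ 2 - 1) * (a ^ 2 - B + 5 * (a ^ 2 * (1 - B))) /
      (4 * a ^ 2 * (4 * (a ^ 2 - B) + 2 * a ^ 2 * (1 - B))) := by
  have : (0 : ℝ) < a ^ 2 - B := by nlinarith
  have : (0 : ℝ) < 1 - B := by linarith
  have ha0 : 0 < a := by linarith
  have : 0 < 4 * (a ^ 2 - B) + 2 * a ^ 2 * (1 - B) := by positivity
  have e4 : 4 * ((1 - B / a ^ 2) / (1 - B)) + 2 =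
      (4 * (a ^ 2 - B) + 2 * a ^ 2 * (1 - B)) / (a ^ 2 * (1 - B)) := by
    field_simp
  rw [e4]
  field_simp
  ring

lemma kLow_le (h0 : 0 < ρ) (hρT : ρ ^ 2 ≤ T) (hT1 : T < 1) (hm : 0 ≤ m) (hd : 0 ≤ d)
    (hmd : m + d < 1) (hV : V = (d / (1 - m)) ^ 2) :
    kLow m V T (ρ ^ 2) - (1 - pB m V) * (-log (1 - (d / (1 + m)) ^ 2) / 2) / 2 ≤
      (ρ ^ 2 * pgap m d - pgap m (ρ * d) - (ρ ^ 2 * log 2 - phi ρ) * d ^ 2) / ρ ^ 2 := by
  have hb : (0 : ℝ) < 1 - m := by linarith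
  have ha : (0 : ℝ) < 1 + m := by linarith
  have h1 : ρ ≤ 1 := by nlinarith
  have t0 : 0 ≤ ρ ^ 2 := sq_nonneg ρ
  have t1 : ρ ^ 2 ≤ 1 := by linarith
  have hT : 0 ≤ T := t0.trans hρT
  have v0 : 0 ≤ d / (1 - m) := by positivity
  have v1 : d / (1 - m) ≤ 1 := (div_le_one hb).2 (by linarith)
  have u0 : 0 ≤ d / (1 + m) := by positivity
  have u1 : d / (1 + m) ≤ 1 := (div_le_one ha).2 (by linarith)
  have hd1 : d < 1 := by linarith
  have hρd : 0 ≤ ρ * d := mul_nonneg h0.le hd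
  have hB : pB m V = d ^ 2 := by rw [pB, hV]; field_simp
  set B := d ^ 2 with hBdef
  have hB0 : 0 ≤ B := sq_nonneg d
  have hB1 : B < 1 := pow_lt_one₀ hd hd1 two_ne_zero
  have sK := hasSum_defect h0 h1 hm hd hmd
  rw [← hBdef] at sK
  have hy : ∀ k : ℕ, 0 ≤ B - B ^ (k + 2) := fun k =>
    sub_nonneg.2 (pow_le_of_le_one hB0 hB1.le (by omega))
  obtain ⟨S, sS⟩ : Summable fun k => gc (ρ ^ 2) k * (B - B ^ (k + 2)) := by
    have hP1 : Summable fun i => pc (i + 1) := ((summable_nat_add_iff 1).2 hasSum_pc.summable)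
    refine Summable.of_nonneg_of_le (fun k => mul_nonneg (gc_nonneg t0 t1 k) (hy k))
      (fun k => ?_) hP1
    exact (mul_le_of_le_one_right (gc_nonneg t0 t1 k) (by linarith [pow_nonneg hB0 (k + 2)])).trans
      (mul_le_of_le_one_right (pc_nonneg _) (by linarith [pow_nonneg t0 (k + 1)]))
  have hlow := below_le t0 hT hd hd1 hBdef sS t1
  have hup := above_ge t0 hρT hT1 hm (by linarith) hB0 hB1 ((sK.add sS).congr_fun fun k => by ring)
  have hdef := deficit_le hd hd1 hBdef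
  have hU : (d / (1 + m)) ^ 2 < 1 := by
    refine pow_lt_one₀ u0 ?_ two_ne_zero
    rw [div_lt_one ha]; linarith
  have hx : 1 ≤ (1 - (d / (1 + m)) ^ 2) / (1 - B) := by
    rw [le_div_iff₀ (by linarith), div_pow]
    have : B / (1 + m) ^ 2 ≤ B := div_le_self hB0 (by nlinarith)
    linarith
  have hpade := mul_le_mul_of_nonneg_left (log_le_pade hx) (by linarith : 0 ≤ (1 - B) / 4)
  rw [log_div (by linarith) (by linarith), div_pow, ← hBdef,
    pade_term (by linarith : (1 : ℝ) ≤ 1 + m) hB1] at hpade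
  rw [kLow, hB, div_pow, ← hBdef]
  linarith

lemma mix_nonneg {s t T lm l1 lT k k0 k1 q q0 q1 B Lm l lt : ℝ} (hs0 : 0 ≤ s) (hs1 : 0 ≤ 1 - s)
    (hlT : 0 ≤ lT) (hlm : 0 ≤ lm) (hB : B ≤ 1) (ek : k = (1 - s) * k0 + s * k1)
    (ep : q = (1 - s) * q0 + s * q1) (hs : s = t / T)
    (aT : 0 ≤ q1 - (lm + lT) * ((1 - B) / 2)) (a0 : 0 ≤ q0 - lm * ((1 - B) / 2))
    (bT' : 0 ≤ k1 * (lm + lT) + q1 * (l1 - lT) - l1 * (lm + lT) * ((1 - B) / 2))
    (b0 : 0 ≤ k0 * lm + q0 * l1 - l1 * lm * ((1 - B) / 2)) (aS : 0 ≤ q1 - q0 - (k1 - k0))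
    (bm : Lm ≤ lm) (bo : l1 ≤ l) (bt : lt ≤ t / T * lT) (h1 : 0 ≤ Lm) (h2 : 0 ≤ lt) (h3 : lt ≤ l) :
    0 ≤ (Lm + lt) * (k - (1 - B) * l / 2) + (l - lt) * q := by
  rw [← hs] at bt
  have hCf : 0 ≤ q - (lm + s * lT) * ((1 - B) / 2) := by
    have := add_nonneg (mul_nonneg hs1 a0) (mul_nonneg hs0 aT)
    rw [ep]
    linarith
  have hq : 0 ≤ q := by
    have : 0 ≤ (lm + s * lT) * ((1 - B) / 2) :=
      mul_nonneg (add_nonneg hlm (mul_nonneg hs0 hlT)) (by linarith)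
    linarith
  rcases le_total 0 (k - (1 - B) * l / 2) with h | h
  · exact add_nonneg (mul_nonneg (by linarith) h) (mul_nonneg (by linarith) hq)
  · have a := mul_le_mul_of_nonpos_right (add_le_add bm bt) h
    have b := mul_le_mul_of_nonneg_right (sub_le_sub_left bt l) hq
    have c := mul_le_mul_of_nonneg_right bo hCf
    have d := add_nonneg (add_nonneg (mul_nonneg hs1 b0) (mul_nonneg hs0 bT'))
      (mul_nonneg (mul_nonneg (mul_nonneg hs0 hs1) hlT) aS)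
    subst ek ep
    linarith

lemma den_pos {B U : ℝ} (hm : 0 ≤ m) (hm1 : m < 1) (hT : 0 ≤ T) (hT1 : T < 1)
    (hB : B = pB m V) (hB0 : 0 ≤ B) (hB1 : B < 1) (hU0 : 0 ≤ U) (hU1 : U ≤ 1)
    (eA : (1 + m) ^ 2 * U = B) :
    0 < fD (reVars m V) T ∧ 0 < fLd (reVars m V) ∧ 0 < fTd (reVars m V) T ∧
      0 < fOd (reVars m V) := by
  have ha : (0 : ℝ) < 1 + m := by linarith
  have hA : (1 : ℝ) ≤ (1 + m) ^ 2 := by nlinarith
  have : 0 < 1 - B := by linarith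
  have : 0 < (1 + m) ^ 2 - B := by linarith
  have hTB : T * B ≤ B := mul_le_of_le_one_left hB0 hT1.le
  have : 0 < 1 - T * B := by linarith
  have : 0 < (1 + m) ^ 2 - T * B := by linarith
  have : 0 < 6 * (1 + m) ^ 2 - 2 * T * B := by linarith
  have hb : 0 < 1 - m := by linarith
  refine ⟨?_, ?_, ?_, ?_⟩
  · simp only [fD, fW, fQ, foB, foT, fa7, fA_eq, fB_eq, fa, rv_m, rv_k, ← hB]
    norm_num
    positivity
  · simp only [fLd, fA_eq, fa, fb, rv_m, rv_k]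
    norm_num
    positivity
  · simp only [fTd, fA_eq, fB_eq, rv_k, ← hB]
    norm_num
    positivity
  · simp only [fOd, fB2, fB3, fA_eq, fB_eq, rv_k, ← hB]
    norm_num
    have hA6 : 0 < ((1 + m) ^ 2) ^ 3 := by positivity
    have := mul_pos hA6 (pade33_den_pos hU0 hU1)
    rw [← eA]
    linarith

lemma lo_le {B U : ℝ} (hB : B = pB m V) (eA : (1 + m) ^ 2 * U = B) (hU0 : 0 ≤ U) (hU1 : U < 1)
    (dO : 0 < fOd (reVars m V)) :
    fOn (reVars m V) / fOd (reVars m V) ≤ -log (1 - U) / 2 := by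
  refine le_trans (le_of_eq ?_) (div_le_div_of_nonneg_right (le_neg_log_one_sub hU0 hU1) two_pos.le)
  have := pade33_den_pos hU0 hU1.le
  rw [div_div, div_eq_div_iff dO.ne' (by positivity)]
  simp only [fOn, fOd, fB2, fB3, fA_eq, fB_eq, rv_k, ← hB]
  norm_num
  rw [← eA]
  ring

lemma lt_le {t B U : ℝ} (hB : B = pB m V) (eA : (1 + m) ^ 2 * U = B) (hT0 : 0 < T) (ht : 0 ≤ t)
    (htT : t ≤ T) (hT1 : T < 1) (hU0 : 0 ≤ U) (hU1 : U < 1) (dT : 0 < fTd (reVars m V) T) :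
    -log (1 - t * U) / 2 ≤ t / T * (fTn (reVars m V) T / fTd (reVars m V) T) ∧
      0 ≤ fTn (reVars m V) T / fTd (reVars m V) T := by
  have hTU : T * U < 1 := lt_of_le_of_lt (mul_le_of_le_one_right hT0.le hU1.le) hT1
  have hs : 0 ≤ t / T := div_nonneg ht hT0.le
  have hconv : t / T * log (1 - T * U) ≤ log (1 - t * U) := by
    have h := strictConcaveOn_log_Ioi.concaveOn.2 (show (1 - T * U : ℝ) ∈ Ioi 0 by simpa using hTU)
      (show (1 : ℝ) ∈ Ioi 0 by norm_num) hs (sub_nonneg.2 ((div_le_one hT0).2 htT))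
      (add_sub_cancel (t / T) 1)
    simp only [smul_eq_mul, log_one, mul_zero, add_zero, mul_one] at h
    refine h.trans (le_of_eq ?_)
    congr 1
    field_simp
    ring
  have h := neg_log_one_sub_le (mul_nonneg hT0.le hU0) hTU
  have : 0 < 1 - T * U := by linarith
  have : 0 < 6 - 2 * (T * U) := by linarith
  have e : T * U * (6 - 5 * (T * U)) / ((1 - T * U) * (6 - 2 * (T * U))) / 2 =
      fTn (reVars m V) T / fTd (reVars m V) T := by
    rw [div_div, div_eq_div_iff (by positivity) dT.ne']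
    simp only [fTn, fTd, fA_eq, fB_eq, rv_k, ← hB]
    norm_num
    rw [← eA]
    ring
  have h2 := div_le_div_of_nonneg_right h two_pos.le
  rw [e] at h2
  constructor
  · have := mul_le_mul_of_nonneg_left h2 hs
    linarith
  · have := log_nonpos (by linarith : 0 ≤ 1 - T * U) (by linarith [mul_nonneg hT0.le hU0])
    linarith

lemma lm_le (hm : 0 ≤ m) (hm1 : m < 1) (dL : 0 < fLd (reVars m V)) :
    log 2 - log (1 + m) ≤ fLn (reVars m V) / fLd (reVars m V) := by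
  have ha : (0 : ℝ) < 1 + m := by linarith
  have hb : (0 : ℝ) < 1 - m := by linarith
  have h := log_one_add_le' (x := (1 - m) / (1 + m)) (by positivity)
  rw [show 1 + (1 - m) / (1 + m) = 2 / (1 + m) by field_simp; ring,
    log_div (by norm_num) ha.ne'] at h
  refine h.trans (le_of_eq ?_)
  rw [div_eq_div_iff (by positivity) dL.ne']
  simp only [fLn, fLd, fA_eq, fa, fb, rv_m, rv_k]
  norm_num
  field_simp

/-- The rational inequalities give the defining inequality of the step. -/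
theorem margin_nonneg (h0 : 0 < ρ) (hρT : ρ ^ 2 ≤ T) (hT1 : T < 1) (hm : 0 ≤ m) (hd : 0 ≤ d)
    (hmd : m + d < 1) (hc : Conds m ((d / (1 - m)) ^ 2) T) :
    0 ≤ (log 2 - log (1 + m) + -log (1 - (d / (1 + m)) ^ 2) / 2) *
        (ρ ^ 2 * (log 2 - phi m) - (ρ ^ 2 * log 2 - phi ρ) * (1 - m ^ 2) - pgap m (ρ * d)) -
      (log 2 - log (1 + m) + -log (1 - ρ ^ 2 * (d / (1 + m)) ^ 2) / 2) *
        (ρ ^ 2 * (log 2 - phi m - pgap m d) - (ρ ^ 2 * log 2 - phi ρ) * (1 - m ^ 2 - d ^ 2)) := by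
  have hb : (0 : ℝ) < 1 - m := by linarith
  have ha : (0 : ℝ) < 1 + m := by linarith
  have hρ : 0 < ρ ^ 2 := by positivity
  have hT0 : 0 < T := lt_of_lt_of_le hρ hρT
  set t := ρ ^ 2 with ht
  set V := (d / (1 - m)) ^ 2 with hV
  set U := (d / (1 + m)) ^ 2 with hU
  set P := t * (log 2 - phi m) - (t * log 2 - phi ρ) * (1 - m ^ 2) - pgap m (ρ * d) with hPdef
  set K := t * pgap m d - pgap m (ρ * d) - (t * log 2 - phi ρ) * d ^ 2 with hKdef
  have eX : t * (log 2 - phi m - pgap m d) - (t * log 2 - phi ρ) * (1 - m ^ 2 - d ^ 2) = P - K := by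
    rw [hPdef, hKdef]; ring
  rw [eX]
  have hP : pLow m V T t ≤ P / t := pLow_le h0 (by nlinarith) hT0.le hm hd hmd hV
  have hK : kLow m V T t - (1 - pB m V) * (-log (1 - U) / 2) / 2 ≤ K / t :=
    kLow_le h0 hρT hT1 hm hd hmd hV
  have hBd : pB m V = d ^ 2 := by rw [pB, hV]; field_simp
  have hB1 : pB m V < 1 := by rw [hBd]; exact pow_lt_one₀ hd (by linarith) two_ne_zero
  have hB0 : 0 ≤ pB m V := hBd ▸ sq_nonneg d
  have hUeq : U = pB m V / (1 + m) ^ 2 := by rw [hBd, hU, div_pow]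
  have hU0 : 0 ≤ U := sq_nonneg _
  have hU1 : U < 1 := by
    rw [hU]; refine pow_lt_one₀ (by positivity) ?_ two_ne_zero
    rw [div_lt_one ha]; linarith
  have hAB : 0 < (1 + m) ^ 2 - pB m V := by nlinarith
  have hTB : 0 < 1 - T * pB m V := by nlinarith
  have eA : (1 + m) ^ 2 * U = pB m V := by rw [hUeq]; field_simp
  obtain ⟨dD, dL, dT, dO⟩ := den_pos hm (by linarith) hT0.le hT1 rfl hB0 hB1 hU0 hU1.le eA
  have bm := lm_le (V := V) hm (by linarith) dL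
  have bo := lo_le rfl eA hU0 hU1 dO
  obtain ⟨bT, hlT0⟩ := lt_le rfl eA hT0 hρ.le hρT hT1 hU0 hU1 dT
  set lm := fLn (reVars m V) / fLd (reVars m V) with hlm
  set l1 := fOn (reVars m V) / fOd (reVars m V) with hl1
  set lT := fTn (reVars m V) T / fTd (reVars m V) T with hlT
  -- the five rational conditions
  have eN := fun s => fN_eq (t := s) hm (by linarith) hAB (by linarith) hTB
  have eP := fun s => fP_eq (T := T) (t := s) (V := V) hm (by linarith : m < 1)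
  have hz : (reVars m V).k 0 1 = 0 := by simp [reVars]
  have hh : (reVars m V).k 1 2 * foB (reVars m V) = (1 - pB m V) / 2 := by
    simp only [foB, fB_eq, rv_k]; norm_num; ring
  have cT := hc.cfT
  have c0 := hc.cf0
  have pT := hc.phiT
  have p0 := hc.phi0
  have sl := hc.slope
  simp only [fCfT, fCf0, fPhiT, fPhi0, fSl, hz, hh, eN, eP] at cT c0 pT p0 sl
  set k0 := kLow m V T 0
  set k1 := kLow m V T T
  set q0 := pLow m V T 0
  set q1 := pLow m V T T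
  set D := fD (reVars m V) T
  set B := pB m V with hBset
  have aT : 0 ≤ q1 - (lm + lT) * ((1 - B) / 2) := by
    refine nonneg_of_mul_nonneg_right (a := D * (fLd (reVars m V) * fTd (reVars m V) T)) ?_ (by positivity)
    refine cT.trans (le_of_eq ?_)
    rw [hlm, hlT]; field_simp
  have a0 : 0 ≤ q0 - lm * ((1 - B) / 2) := by
    refine nonneg_of_mul_nonneg_right (a := D * fLd (reVars m V)) ?_ (by positivity)
    refine c0.trans (le_of_eq ?_)
    rw [hlm]; field_simp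
  have bT' : 0 ≤ k1 * (lm + lT) + q1 * (l1 - lT) - l1 * (lm + lT) * ((1 - B) / 2) := by
    refine nonneg_of_mul_nonneg_right
      (a := D * (fLd (reVars m V) * fTd (reVars m V) T * fOd (reVars m V))) ?_ (by positivity)
    refine pT.trans (le_of_eq ?_)
    rw [hlm, hlT, hl1]; field_simp
  have b0 : 0 ≤ k0 * lm + q0 * l1 - l1 * lm * ((1 - B) / 2) := by
    refine nonneg_of_mul_nonneg_right
      (a := D * (fLd (reVars m V) * fOd (reVars m V))) ?_ (by positivity)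
    refine p0.trans (le_of_eq ?_)
    rw [hlm, hl1]; field_simp
  have aS : 0 ≤ q1 - q0 - (k1 - k0) :=
    nonneg_of_mul_nonneg_right (a := D) (by linarith) dD
  set s := t / T with hs
  have hs0 : 0 ≤ s := div_nonneg hρ.le hT0.le
  have hs1 : 0 ≤ 1 - s := sub_nonneg.2 ((div_le_one hT0).2 hρT)
  obtain ⟨ek, ep⟩ := low_linear m V T t s (by rw [hs]; field_simp)
  have hLm : 0 ≤ log 2 - log (1 + m) := by
    have := log_le_log ha (by linarith : 1 + m ≤ 2)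
    linarith
  have htU : t * U ≤ U := mul_le_of_le_one_left hU0 (by linarith)
  have htU0 : 0 ≤ t * U := mul_nonneg hρ.le hU0
  have hlt0 : 0 ≤ -log (1 - t * U) / 2 := by
    have := log_nonpos (by linarith : (0 : ℝ) ≤ 1 - t * U) (by linarith)
    linarith
  have hll : -log (1 - t * U) / 2 ≤ -log (1 - U) / 2 := by
    have := log_le_log (by linarith : 0 < 1 - U) (by linarith : 1 - U ≤ 1 - t * U)
    linarith
  have main := mix_nonneg hs0 hs1 hlT0 (hLm.trans bm) hB1.le ek ep hs aT a0 bT' b0 aS bm bo bT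
    hLm hlt0 hll
  set Lm := log 2 - log (1 + m)
  set l := -log (1 - U) / 2
  set lt := -log (1 - t * U) / 2
  have a := mul_le_mul_of_nonneg_left hK (by linarith : 0 ≤ Lm + lt)
  have b := mul_le_mul_of_nonneg_left hP (by linarith : 0 ≤ l - lt)
  have fin : 0 ≤ (Lm + lt) * (K / t) + (l - lt) * (P / t) := by linarith
  have := mul_nonneg fin hρ.le
  rw [add_mul, mul_assoc, mul_assoc, div_mul_cancel₀ _ hρ.ne', div_mul_cancel₀ _ hρ.ne'] at this
  linarith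

end Main

end Vale.Agent.P322.High
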