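import Mathlib
import Vale.Agent.P322.High.Main

/-!
The induction step at high noise on the five regions.
-/

open Real Set Filter
open scoped Topology

namespace Vale.Agent.P322.High

variable {ε a b T d₁ : ℝ}

/-- The tangent certificate at ` (a, b)` proves the step inequality. -/
lemma cap_le_cert (h0 : 0 < ε) (h1 : ε < 1 / 2) (hT : (1 - 2 * ε) ^ 2 ≤ T) (hT1 : T < 1)
    (hC : ∀ m V : ℝ, 0 ≤ m → m < 1 → 0 ≤ V → V < 1 → (1 - m) ^ 2 * V ≤ d₁ ^ 2 → Conds m V T)
    (hlt : a < b) (hab : a + b ≤ 1) (ha : 0 < a) (hd : b - a ≤ d₁) :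
    capBound 1 ε ((a + b) / 2) ≤ mixEnt ε a b -
      certTh ε (1 - a - b) (b - a) * (avgEnt a b - (capBound 1 ε a + capBound 1 ε b) / 2) := by
  set m := 1 - a - b with hm
  set d := b - a with hddef
  set ρ := 1 - 2 * ε with hρ
  have hm0 : 0 ≤ m := by linarith
  have hd0 : 0 < d := by linarith
  have hmd : m + d < 1 := by linarith
  have hb : 0 < 1 - m := by linarith
  have v0 : 0 ≤ d / (1 - m) := by positivity
  have hV1 : (d / (1 - m)) ^ 2 < 1 :=
    pow_lt_one₀ v0 ((div_lt_one hb).2 (by linarith)) two_ne_zero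
  have hreg : (1 - m) ^ 2 * (d / (1 - m)) ^ 2 ≤ d₁ ^ 2 := by
    rw [← mul_pow, mul_div_cancel₀ _ hb.ne']
    exact pow_le_pow_left₀ hd0.le hd 2
  have key := margin_nonneg (by linarith : 0 < ρ) hT hT1 hm0 hd0.le hmd
    (hC m _ hm0 (by linarith) (sq_nonneg _) hV1 hreg)
  have ea : binEntropy a = log 2 - phi (m + d) := by
    rw [binEntropy_eq_phi, show 1 - 2 * a = m + d by rw [hm, hddef]; ring]
  have eb : binEntropy b = log 2 - phi (m - d) := by
    rw [binEntropy_eq_phi, show 1 - 2 * b = m - d by rw [hm, hddef]; ring]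
  have em : binEntropy ((a + b) / 2) = log 2 - phi m := by
    rw [binEntropy_eq_phi, show 1 - 2 * ((a + b) / 2) = m by rw [hm]; ring]
  have ep : binEntropy ((1 - ε) * a + ε * b) = log 2 - phi (m + ρ * d) := by
    rw [binEntropy_eq_phi, show 1 - 2 * ((1 - ε) * a + ε * b) = m + ρ * d by
      rw [hm, hddef, hρ]; ring]
  have eq : binEntropy (ε * a + (1 - ε) * b) = log 2 - phi (m - ρ * d) := by
    rw [binEntropy_eq_phi, show 1 - 2 * (ε * a + (1 - ε) * b) = m - ρ * d by
      rw [hm, hddef, hρ]; ring]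
  have eh : binEntropy ε = log 2 - phi ρ := binEntropy_eq_phi ε
  have hC4 : 4 * ε * (1 - ε) = 1 - ρ ^ 2 := by rw [hρ]; ring
  have qa : 4 * a * (1 - a) = 1 - (m + d) ^ 2 := by rw [hm, hddef]; ring
  have qb : 4 * b * (1 - b) = 1 - (m - d) ^ 2 := by rw [hm, hddef]; ring
  have qm : 4 * ((a + b) / 2) * (1 - (a + b) / 2) = 1 - m ^ 2 := by rw [hm]; ring
  unfold capBound mixEnt avgEnt
  rw [ea, eb, em, ep, eq, eh, hC4, qa, qb, qm]
  simp only [pgap] at key
  have hl1 : lrate 1 (d / (1 + m)) = -log (1 - (d / (1 + m)) ^ 2) / 2 := by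
    rw [lrate, one_mul]
  have hlt' : lrate (ρ ^ 2) (d / (1 + m)) = -log (1 - ρ ^ 2 * (d / (1 + m)) ^ 2) / 2 := rfl
  have hden : 0 < log 2 - log (1 + m) + lrate 1 (d / (1 + m)) := by
    have h := log_lt_log (by linarith : 0 < 1 + m) (by linarith : 1 + m < 2)
    have hu : (d / (1 + m)) ^ 2 < 1 :=
      pow_lt_one₀ (by positivity) ((div_lt_one (by linarith)).2 (by linarith)) two_ne_zero
    have := log_nonpos (by linarith : 0 ≤ 1 - (d / (1 + m)) ^ 2)
      (by linarith [sq_nonneg (d / (1 + m))])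
    rw [hl1]
    linarith
  rw [certTh, certNu, ← hρ, one_sub_div hden.ne']
  rw [hl1, hlt'] at *
  rw [← sub_nonneg]
  refine nonneg_of_mul_nonneg_right (a := log 2 - log (1 + m) + -log (1 - (d / (1 + m)) ^ 2) / 2) ?_ hden
  refine key.trans (le_of_eq ?_)
  clear_value ρ
  generalize phi (m + d) = p1
  generalize phi (m - d) = p2
  generalize phi (m + ρ * d) = q1
  generalize phi (m - ρ * d) = q2
  generalize phi m = p0
  generalize phi ρ = r0
  generalize log (1 - ρ ^ 2 * (d / (1 + m)) ^ 2) = L1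
  generalize hLb : log 2 - log (1 + m) + -log (1 - (d / (1 + m)) ^ 2) / 2 = Lb at hden
  have e : log 2 - log (1 + m) + -L1 / 2 = Lb - (-log (1 - (d / (1 + m)) ^ 2) / 2 - -L1 / 2) := by
    rw [← hLb]; ring
  rw [e]
  generalize -log (1 - (d / (1 + m)) ^ 2) / 2 - -L1 / 2 = N
  field_simp
  ring

/-- The step on a region, for ordered pairs below the centre. -/
lemma step_ordered (h0 : 0 < ε) (h1 : ε < 1 / 2) (hT : (1 - 2 * ε) ^ 2 ≤ T) (hT1 : T < 1)
    (hC : ∀ m V : ℝ, 0 ≤ m → m < 1 → 0 ≤ V → V < 1 → (1 - m) ^ 2 * V ≤ d₁ ^ 2 → Conds m V T)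
    (ha : 0 ≤ a) (hlt : a ≤ b) (hab : a + b ≤ 1) (hd : b - a ≤ d₁) :
    StepAt ε (capBound 1 ε) a b := by
  rcases hlt.eq_or_lt with rfl | hlt
  · refine stepAt_of_affine (θ := 1) (α := 0) (β := 0) (c := 0) zero_le_one (fun u v hu hv => ?_) ?_
    · have := avgEnt_le_mixEnt h0.le (by linarith) hu hv
      linarith
    · rw [show (a + a) / 2 = a by ring]
      linarith
  rcases ha.eq_or_lt with rfl | ha
  · intro n u v hu hv hua hvb hD
    rcases (show b ≤ 1 by linarith).eq_or_lt with rfl | hb1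
    · have hu0 : ∀ y, u y = 0 := fun y => by
        have h : ∑ y, u y = 0 := by
          rcases mul_eq_zero.1 hua with h | h
          · exact absurd h (by positivity)
          · exact h
        exact (Finset.sum_eq_zero_iff_of_nonneg fun y _ => (hu y).1).1 h y (Finset.mem_univ y)
      have hv1 : ∀ y, v y = 1 := fun y => by
        have h : ∑ y, (1 - v y) = 0 := by
          simp [Finset.sum_sub_distrib] at hvb ⊢
          field_simp at hvb
          linarith
        have := (Finset.sum_eq_zero_iff_of_nonneg fun y _ => sub_nonneg.2 (hv y).2).1 h y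
          (Finset.mem_univ y)
        linarith
      simp [hu0, hv1, mixEnt, capBound]
      linarith
    · set E := 1 / 2 ^ n * ∑ y, mixEnt ε (u y) (v y)
      have hcont : Continuous (capBound 1 ε) := by unfold capBound; fun_prop
      have lim : Tendsto (fun x : ℝ => capBound 1 ε ((x + b) / 2) -
          |capBound 1 ε 0 - capBound 1 ε x| / 2) (𝓝[>] 0) (𝓝 (capBound 1 ε ((0 + b) / 2))) := by
        have hc : Continuous fun x : ℝ => capBound 1 ε ((x + b) / 2) -
            |capBound 1 ε 0 - capBound 1 ε x| / 2 :=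
          (hcont.comp (by fun_prop)).sub ((continuous_const.sub hcont).abs.div_const 2)
        simpa using (hc.tendsto 0).mono_left nhdsWithin_le_nhds
      refine le_of_tendsto lim ?_
      have hev : ∀ᶠ x : ℝ in 𝓝[>] 0, x ∈ Ioo (0 : ℝ) (min b (1 - b)) :=
        Ioo_mem_nhdsGT (lt_min hlt (by linarith))
      filter_upwards [hev] with x hx
      have hxb : x < b := hx.2.trans_le (min_le_left _ _)
      have hx1 : x + b ≤ 1 := by linarith [hx.2.trans_le (min_le_right b (1 - b))]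
      have core := cap_le_cert h0 h1 hT hT1 hC hxb hx1 hx.1 (by linarith [hx.1])
      have heq := tan_cert_eq h0 h1 hx1 hxb hx.1
      have hθ := certTh_mem (m₀ := 1 - x - b) (d₀ := b - x) h0 h1 (by linarith) (by linarith)
        (by linarith [hx.1])
      have hγ := certGam_nonneg (m₀ := 1 - x - b) (d₀ := b - x) h0 h1 (by linarith) (by linarith)
        (by linarith [hx.1])
      have hk := certK_pos (m₀ := 1 - x - b) (d₀ := b - x) h0 h1 (by linarith) (by linarith)
        (by linarith [hx.1])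
      set θ := certTh ε (1 - x - b) (b - x)
      set γ := certGam ε (1 - x - b) (b - x)
      set k := certK ε (1 - x - b) (b - x)
      have hs := mul_le_mul_of_nonneg_left
        (Finset.sum_le_sum fun y (_ : y ∈ Finset.univ) => tan_cert_affine (m₀ := 1 - x - b)
          (d₀ := b - x) h0 h1 (by linarith) (by linarith) (by linarith [hx.1]) (hu y) (hv y))
        (by positivity : (0 : ℝ) ≤ 1 / 2 ^ n)
      simp only [Finset.sum_add_distrib, ← Finset.mul_sum] at hs
      have eu : (1 / 2 ^ n : ℝ) * ((-k - γ) * ∑ y, u y) = 0 := by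
        rw [mul_left_comm, hua, mul_zero]
      have ev : (1 / 2 ^ n : ℝ) * ((k - γ) * ∑ y, v y) = (k - γ) * b := by
        rw [mul_left_comm, hvb]
      rw [mul_add, mul_add, eu, ev] at hs
      have hD' := mul_le_mul_of_nonneg_left hD hθ.1.le
      have hneg : (-k - γ) * x ≤ 0 := mul_nonpos_of_nonpos_of_nonneg (by linarith) hx.1.le
      have habs : -|capBound 1 ε 0 - capBound 1 ε x| ≤ θ * (capBound 1 ε 0 - capBound 1 ε x) := by
        have h := neg_abs_le (θ * (capBound 1 ε 0 - capBound 1 ε x))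
        rw [abs_mul, abs_of_pos hθ.1] at h
        have := mul_le_of_le_one_left (abs_nonneg (capBound 1 ε 0 - capBound 1 ε x)) hθ.2.le
        linarith
      linarith
  have core := cap_le_cert h0 h1 hT hT1 hC hlt hab ha hd
  have heq := tan_cert_eq h0 h1 hab hlt ha
  refine stepAt_of_affine (θ := certTh ε (1 - a - b) (b - a))
    (α := -certK ε (1 - a - b) (b - a) - certGam ε (1 - a - b) (b - a))
    (β := certK ε (1 - a - b) (b - a) - certGam ε (1 - a - b) (b - a)) (c := 0)
    (certTh_mem h0 h1 (by linarith) (by linarith) (by linarith)).1.le (fun u v hu hv => ?_) ?_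
  · have := tan_cert_affine (m₀ := 1 - a - b) (d₀ := b - a) h0 h1 (by linarith) (by linarith)
      (by linarith) hu hv
    linarith
  · linarith

/-- The step on a region. -/
lemma step_region (h0 : 0 < ε) (h1 : ε < 1 / 2) (hT : (1 - 2 * ε) ^ 2 ≤ T) (hT1 : T < 1)
    (hC : ∀ m V : ℝ, 0 ≤ m → m < 1 → 0 ≤ V → V < 1 → (1 - m) ^ 2 * V ≤ d₁ ^ 2 → Conds m V T)
    (ha : a ∈ Icc (0 : ℝ) 1) (hb : b ∈ Icc (0 : ℝ) 1) (hd : |a - b| ≤ d₁) :
    StepAt ε (capBound 1 ε) a b := by
  obtain ⟨hd1, hd2⟩ := abs_le.1 hd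
  have flip := capBound_one_sub 1 ε
  rcases le_total a b with h | h <;> rcases le_total (a + b) 1 with g | g
  · exact step_ordered h0 h1 hT hT1 hC ha.1 h g (by linarith)
  · exact stepAt_one_sub flip (stepAt_comm (step_ordered h0 h1 hT hT1 hC (by linarith [hb.2])
      (by linarith) (by linarith) (by linarith)))
  · exact stepAt_comm (step_ordered h0 h1 hT hT1 hC hb.1 h (by linarith) (by linarith))
  · exact stepAt_one_sub flip (step_ordered h0 h1 hT hT1 hC (by linarith [ha.2]) (by linarith)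
      (by linarith) (by linarith))

lemma conds_of {n : ℤ} {d num dnm bits : ℕ} {C : Cover} (h : checks n d num dnm bits C = true)
    (hd0 : 0 < d) (hdn : 0 < dnm) {d₁ : ℝ} (hd₁ : d₁ ^ 2 = (num : ℝ) / dnm) (m V : ℝ)
    (hm0 : 0 ≤ m) (hm1 : m < 1) (hV0 : 0 ≤ V) (hV1 : V < 1) (hreg : (1 - m) ^ 2 * V ≤ d₁ ^ 2) :
    Conds m V ((n : ℝ) / d) := by
  have := conds_of_checks h hm0 hm1 hV0 hV1
    (by rw [hd₁, le_div_iff₀ (by exact_mod_cast hdn)] at hreg; exact hreg)
  rwa [reVars_k m V n d hd0] at this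

/-- Crossover at least `7/50`: every pair of means. -/
theorem stepA (he : 7 / 50 ≤ ε) (he1 : ε < 1 / 2) (ha : a ∈ Icc (0 : ℝ) 1)
    (hb : b ∈ Icc (0 : ℝ) 1) : StepAt ε (capBound 1 ε) a b :=
  step_region (T := ((324 : ℤ) : ℝ) / (625 : ℕ)) (d₁ := 1) (by linarith) he1
    (by push_cast; nlinarith) (by norm_num) (conds_of checkA (by norm_num) (by norm_num) (by norm_num))
    ha hb (abs_le.2 ⟨by linarith [ha.1, hb.2], by linarith [ha.2, hb.1]⟩)

/-- Crossover at least `33/250`: means at distance at most `147/200`. -/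
theorem stepB4 (he : 33 / 250 ≤ ε) (he1 : ε < 1 / 2) (ha : a ∈ Icc (0 : ℝ) 1)
    (hb : b ∈ Icc (0 : ℝ) 1) (hd : |a - b| ≤ 147 / 200) : StepAt ε (capBound 1 ε) a b :=
  step_region (T := ((8464 : ℤ) : ℝ) / (15625 : ℕ)) (d₁ := 147 / 200) (by linarith) he1
    (by push_cast; nlinarith) (by norm_num)
    (conds_of checkB4 (by norm_num) (by norm_num) (by norm_num)) ha hb hd

/-- Crossover at least `1/8`: means at distance at most `129/200`. -/
theorem stepB3 (he : 1 / 8 ≤ ε) (he1 : ε < 1 / 2) (ha : a ∈ Icc (0 : ℝ) 1)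
    (hb : b ∈ Icc (0 : ℝ) 1) (hd : |a - b| ≤ 129 / 200) : StepAt ε (capBound 1 ε) a b :=
  step_region (T := ((9 : ℤ) : ℝ) / (16 : ℕ)) (d₁ := 129 / 200) (by linarith) he1
    (by push_cast; nlinarith) (by norm_num)
    (conds_of checkB3 (by norm_num) (by norm_num) (by norm_num)) ha hb hd

/-- Crossover at least `23/200`: means at distance at most `101/200`. -/
theorem stepB2 (he : 23 / 200 ≤ ε) (he1 : ε < 1 / 2) (ha : a ∈ Icc (0 : ℝ) 1)
    (hb : b ∈ Icc (0 : ℝ) 1) (hd : |a - b| ≤ 101 / 200) : StepAt ε (capBound 1 ε) a b :=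
  step_region (T := ((5929 : ℤ) : ℝ) / (10000 : ℕ)) (d₁ := 101 / 200) (by linarith) he1
    (by push_cast; nlinarith) (by norm_num)
    (conds_of checkB2 (by norm_num) (by norm_num) (by norm_num)) ha hb hd

/-- Crossover at least `21/200`: means at distance at most `83/200`. -/
theorem stepB1 (he : 21 / 200 ≤ ε) (he1 : ε < 1 / 2) (ha : a ∈ Icc (0 : ℝ) 1)
    (hb : b ∈ Icc (0 : ℝ) 1) (hd : |a - b| ≤ 83 / 200) : StepAt ε (capBound 1 ε) a b :=
  step_region (T := ((6241 : ℤ) : ℝ) / (10000 : ℕ)) (d₁ := 83 / 200) (by linarith) he1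
    (by push_cast; nlinarith) (by norm_num)
    (conds_of checkB1 (by norm_num) (by norm_num) (by norm_num)) ha hb hd

end Vale.Agent.P322.High

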